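import Vale.Agent.P365.T2.H320.UHub

/-!
# P365 T2, X-UFLOW: the truncated position field

`ΦR N J : Tor N → ℝ^m`, `‖ΦR x - ΦR y‖² = h_{4^J}(4 dsq x y) = 4^J t / (4^J + t)`, `t = 4 dsq x y`.
All squared distances are `0` or in `[1, 4^J]`, whatever `N` is.

* `ttR_le`, `ttR_or`: the hypotheses of 844's `ups_gen`;
* `VecLip_fR`, `uF`, `VecLip_uF`: Lipschitz families; `PhiG_uF`, `LossG_uF`, `YG_uF`;
* `hk_comp`: `h_a ∘ h_b = h_{ab/(a+b)}`; `wR_ge`, `wR_le`: the kernels `w_k` of the truncated field.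
-/

set_option linter.all false

namespace P365T2.H320U

open Vale.Agent.P365.J376 P365L P365O P365T1 P365L.TL Matrix Complex MeasureTheory Filter Set
open P365T2.H37 (hk wk Hc)
open scoped ComplexConjugate ENNReal

/-! ### kernels -/

/-- `h_a ∘ h_b = h_{ab/(a+b)}` -/
theorem hk_comp {a b t : ℝ} (ha : 0 < a) (hb : 0 < b) (ht : 0 ≤ t) :
    hk a (hk b t) = hk (a * b / (a + b)) t := by
  unfold hk
  have h1 : 0 < b + t := by positivity
  have h2 : 0 < a + b := by positivity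
  have h3 : 0 < a + b * t / (b + t) := by positivity
  have h4 : 0 < a * b / (a + b) + t := by
    have : 0 < a * b / (a + b) := by positivity
    linarith
  rw [div_eq_div_iff h3.ne' h4.ne']
  field_simp
  ring

/-- increments of `a ↦ h_a t` -/
theorem hk_sub {a b t : ℝ} (ha : 0 < a) (hb : 0 < b) (ht : 0 ≤ t) :
    hk b t - hk a t = (b - a) * t ^ 2 / ((a + t) * (b + t)) := by
  unfold hk
  have h1 : 0 < a + t := by positivity
  have h2 : 0 < b + t := by positivity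
  field_simp
  ring

theorem hk_sub_ge {a b t : ℝ} (ha : 0 < a) (hab : a ≤ b) (ht : 0 ≤ t) :
    (b - a) * t ^ 2 / (b + t) ^ 2 ≤ hk b t - hk a t := by
  have hb : 0 < b := ha.trans_le hab
  rw [hk_sub ha hb ht]
  have h1 : 0 < a + t := by positivity
  have h2 : 0 < b + t := by positivity
  have h3 : 0 ≤ (b - a) * t ^ 2 := mul_nonneg (sub_nonneg.2 hab) (sq_nonneg _)
  refine div_le_div_of_nonneg_left h3 (by positivity) ?_
  nlinarith

theorem hk_sub_le {a b t : ℝ} (ha : 0 < a) (hab : a ≤ b) (ht : 0 ≤ t) :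
    hk b t - hk a t ≤ (b - a) * t ^ 2 / (a + t) ^ 2 := by
  have hb : 0 < b := ha.trans_le hab
  rw [hk_sub ha hb ht]
  have h1 : 0 < a + t := by positivity
  have h2 : 0 < b + t := by positivity
  have h3 : 0 ≤ (b - a) * t ^ 2 := mul_nonneg (sub_nonneg.2 hab) (sq_nonneg _)
  refine div_le_div_of_nonneg_left h3 (by positivity) ?_
  nlinarith

/-- the modified radii: `1/a_k = 1/4^k + 1/4^J` -/
noncomputable def aR (J k : ℕ) : ℝ := (4 : ℝ) ^ k * 4 ^ J / (4 ^ k + 4 ^ J)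

theorem aR_pos (J k : ℕ) : 0 < aR J k := by unfold aR; positivity

theorem aR_le (J k : ℕ) : aR J k ≤ 4 ^ k := by
  unfold aR
  rw [div_le_iff₀ (by positivity)]
  have h1 : (0 : ℝ) < 4 ^ k := by positivity
  nlinarith [mul_pos h1 h1]

theorem aR_ge {J k : ℕ} (hk : k ≤ J) : (4 : ℝ) ^ k / 2 ≤ aR J k := by
  unfold aR
  have h0 : (0 : ℝ) < 4 ^ k := by positivity
  have h1 : (4 : ℝ) ^ k ≤ 4 ^ J := pow_le_pow_right₀ (by norm_num) hk
  rw [le_div_iff₀ (by positivity)]
  nlinarith [mul_le_mul_of_nonneg_left h1 h0.le]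

theorem aR_succ_sub {J k : ℕ} (hk : k + 1 ≤ J) :
    3 / 16 * (4 : ℝ) ^ (k + 1) ≤ aR J (k + 1) - aR J k := by
  unfold aR
  have h0 : (0 : ℝ) < 4 ^ k := by positivity
  have hJ : (0 : ℝ) < 4 ^ J := by positivity
  have h1 : (4 : ℝ) ^ (k + 1) ≤ 4 ^ J := pow_le_pow_right₀ (by norm_num) hk
  rw [pow_succ] at h1 ⊢
  rw [div_sub_div _ _ (by positivity) (by positivity), le_div_iff₀ (by positivity)]
  set a : ℝ := 4 ^ k with ha
  set b : ℝ := 4 ^ J with hb
  have e : a * 4 * b * (a + b) - (a * 4 + b) * (a * b) = 3 * (a * b ^ 2) := by ring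
  rw [e]
  have h2 : (a * 4 + b) * (a + b) ≤ 4 * b ^ 2 := by nlinarith
  calc 3 / 16 * (a * 4) * ((a * 4 + b) * (a + b)) ≤ 3 / 16 * (a * 4) * (4 * b ^ 2) :=
        mul_le_mul_of_nonneg_left h2 (by positivity)
    _ = 3 * (a * b ^ 2) := by ring

theorem aR_mono {J k : ℕ} : aR J k ≤ aR J (k + 1) := by
  unfold aR
  have h0 : (0 : ℝ) < 4 ^ k := by positivity
  have hJ : (0 : ℝ) < 4 ^ J := by positivity
  rw [pow_succ, div_le_div_iff₀ (by positivity) (by positivity)]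
  nlinarith [mul_pos h0 hJ, mul_pos (mul_pos h0 hJ) hJ]

/-- the kernels `w_k` of the truncated field, `1 ≤ k + 1 ≤ J` -/
theorem wk_R {J k : ℕ} (hkJ : k + 1 ≤ J) {t : ℝ} (ht : 0 ≤ t) :
    wk J (k + 1) (hk (4 ^ J) t) = hk (aR J (k + 1)) t - hk (aR J k) t := by
  unfold wk Hc
  rw [if_neg (by omega), if_pos (by omega), if_neg (by omega), if_pos (by omega)]
  simp only [Nat.add_sub_cancel]
  rw [hk_comp (by positivity) (by positivity) ht, hk_comp (by positivity) (by positivity) ht]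
  rfl

theorem wk_R_zero (J : ℕ) {t : ℝ} (ht : 0 ≤ t) :
    wk J 0 (hk (4 ^ J) t) = hk (aR J 0) t := by
  unfold wk Hc
  rw [if_neg (by omega), if_pos (by omega), if_pos rfl]
  simp only [Nat.zero_add, Nat.sub_self, sub_zero]
  rw [hk_comp (by positivity) (by positivity) ht]
  rfl

theorem wk_R_top (J : ℕ) {t : ℝ} (ht : 0 ≤ t) :
    wk J (J + 1) (hk (4 ^ J) t) = hk (4 ^ J) t - hk (aR J J) t := by
  unfold wk Hc
  rw [if_neg (by omega), if_neg (by omega), if_neg (by omega), if_pos (by omega)]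
  simp only [Nat.add_sub_cancel]
  rw [hk_comp (by positivity) (by positivity) ht]
  rfl

/-- **lower bound** for the kernels of the truncated field -/
theorem wR_ge {J k : ℕ} (hkJ : k + 1 ≤ J) {t : ℝ} (ht : 0 ≤ t) :
    3 / 16 * (4 : ℝ) ^ (k + 1) * t ^ 2 / (4 ^ (k + 1) + t) ^ 2 ≤
      wk J (k + 1) (hk (4 ^ J) t) := by
  rw [wk_R hkJ ht]
  refine le_trans ?_ (hk_sub_ge (aR_pos J k) aR_mono ht)
  have h1 := aR_succ_sub hkJ
  have h2 := aR_le J (k + 1)
  have h3 := aR_pos J (k + 1)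
  have h4 : 0 < aR J (k + 1) + t := by positivity
  calc 3 / 16 * (4 : ℝ) ^ (k + 1) * t ^ 2 / (4 ^ (k + 1) + t) ^ 2
      ≤ 3 / 16 * (4 : ℝ) ^ (k + 1) * t ^ 2 / (aR J (k + 1) + t) ^ 2 := by
        refine div_le_div_of_nonneg_left (by positivity) (by positivity) ?_
        exact pow_le_pow_left₀ h4.le (by linarith) 2
    _ ≤ _ := by
        refine div_le_div_of_nonneg_right ?_ (by positivity)
        exact mul_le_mul_of_nonneg_right h1 (sq_nonneg t)

/-- **upper bound** for the kernels of the truncated field -/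
theorem wR_le {J k : ℕ} (hkJ : k + 1 ≤ J) {t : ℝ} (ht : 0 ≤ t) :
    wk J (k + 1) (hk (4 ^ J) t) ≤ 64 * (4 : ℝ) ^ (k + 1) * t ^ 2 / (4 ^ (k + 1) + t) ^ 2 := by
  rw [wk_R hkJ ht]
  refine (hk_sub_le (aR_pos J k) aR_mono ht).trans ?_
  have h1 : aR J (k + 1) - aR J k ≤ 4 ^ (k + 1) := by
    have := aR_le J (k + 1)
    have := aR_pos J k
    linarith
  have h2 := aR_ge (J := J) (k := k) (by omega)
  have h3 := aR_pos J k
  have h4 : 0 < aR J k + t := by positivity
  have h5 : (4 : ℝ) ^ (k + 1) + t ≤ 8 * (aR J k + t) := by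
    rw [pow_succ]
    linarith
  have h6 : ((4 : ℝ) ^ (k + 1) + t) ^ 2 ≤ 64 * (aR J k + t) ^ 2 := by
    calc ((4 : ℝ) ^ (k + 1) + t) ^ 2 ≤ (8 * (aR J k + t)) ^ 2 :=
          pow_le_pow_left₀ (by positivity) h5 2
      _ = _ := by ring
  rw [div_le_div_iff₀ (by positivity) (by positivity)]
  calc (aR J (k + 1) - aR J k) * t ^ 2 * (4 ^ (k + 1) + t) ^ 2
      ≤ 4 ^ (k + 1) * t ^ 2 * (64 * (aR J k + t) ^ 2) := by
        refine mul_le_mul (mul_le_mul_of_nonneg_right h1 (sq_nonneg _)) h6 (sq_nonneg _)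
          (by positivity)
    _ = _ := by ring

/-! ### the truncated field on the torus -/

section torus

variable (N : ℕ) [NeZero N] (J : ℕ)

/-- number of components -/
noncomputable def mR : ℕ := (exists_kfam (fun (i : Fin 4) (x : Tor N) => 2 * phi N i x) J).choose

/-- the family of the truncated field -/
noncomputable def fR : Fin (mR N J) → Tor N → ℝ :=
  (exists_kfam (fun (i : Fin 4) (x : Tor N) => 2 * phi N i x) J).choose_spec.choose

/-- the truncated field -/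
noncomputable def PhiR (x : Tor N) : EuclideanSpace ℝ (Fin (mR N J)) :=
  WithLp.toLp 2 fun j => fR N J j x

variable {N J}

theorem dF_two_phi (x y : Tor N) :
    dF (fun (i : Fin 4) (x : Tor N) => 2 * phi N i x) x y = 4 * dsq x y := by
  unfold dF dsq
  rw [Finset.mul_sum]
  exact Finset.sum_congr rfl fun i _ => by ring

theorem fR_spec (x y : Tor N) :
    ∑ j, (fR N J j x - fR N J j y) ^ 2 = hk ((4 : ℝ) ^ J) (4 * dsq x y) := by
  rw [← dF_two_phi]
  exact (exists_kfam (fun (i : Fin 4) (x : Tor N) => 2 * phi N i x) J).choose_spec.choose_spec.1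
    x y

theorem ttR_eq (x y : Tor N) :
    ‖PhiR N J x - PhiR N J y‖ ^ 2 = hk ((4 : ℝ) ^ J) (4 * dsq x y) := by
  rw [← fR_spec]
  exact norm_toLp_sq (fR N J) x y

theorem ttR_le (x y : Tor N) : ‖PhiR N J x - PhiR N J y‖ ^ 2 ≤ 4 ^ J := by
  rw [ttR_eq]
  exact P365T2.H37.hk_le_left (by positivity) (by linarith [dsq_nonneg x y])

theorem dsq_self (x : Tor N) : dsq x x = 0 := by simp [dsq]

theorem nrm_pos_of_ne {x y : Tor N} (h : x ≠ y) : 1 ≤ nrm (x - y) := by
  rw [Nat.one_le_iff_ne_zero]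
  intro h0
  refine h (sub_eq_zero.1 ?_)
  have h1 : (x - y).1.valMinAbs.natAbs ≤ nrm (x - y) := le_max_left _ _
  have h2 : (x - y).2.valMinAbs.natAbs ≤ nrm (x - y) := le_max_right _ _
  rw [h0] at h1 h2
  have h3 : (x - y).1.valMinAbs = 0 := by omega
  have h4 : (x - y).2.valMinAbs = 0 := by omega
  rw [ZMod.valMinAbs_eq_zero] at h3 h4
  exact Prod.ext h3 h4

theorem four_dsq_ge {x y : Tor N} (h : x ≠ y) : 8 / 5 ≤ 4 * dsq x y := by
  have h1 := dsq_ge x y
  have h2 : (1 : ℝ) ≤ nrm (x - y) := by exact_mod_cast nrm_pos_of_ne h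
  have h3 : (1 : ℝ) ≤ (nrm (x - y) : ℝ) ^ 2 := by nlinarith
  have h4 : (2 : ℝ) / 5 ≤ 4 / Real.pi ^ 2 := by
    have h5 : Real.pi < 3.15 := Real.pi_lt_d2
    rw [div_le_div_iff₀ (by norm_num) (by positivity)]
    nlinarith [Real.pi_pos]
  nlinarith [mul_le_mul h4 h3 (by norm_num) (by positivity)]

theorem ttR_or (hJ : 1 ≤ J) (x y : Tor N) :
    ‖PhiR N J x - PhiR N J y‖ ^ 2 = 0 ∨ 1 ≤ ‖PhiR N J x - PhiR N J y‖ ^ 2 := by
  by_cases h : x = y
  · left
    simp [h]
  · right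
    rw [ttR_eq]
    unfold hk
    have h1 := four_dsq_ge h
    have h2 : (4 : ℝ) ≤ 4 ^ J := by
      calc (4 : ℝ) = 4 ^ 1 := by norm_num
        _ ≤ _ := pow_le_pow_right₀ (by norm_num) hJ
    have h3 : (0 : ℝ) < 4 ^ J + 4 * dsq x y := by linarith
    rw [le_div_iff₀ h3]
    nlinarith

/-- `ΦR` separates the points -/
theorem ttR_zero_iff (hJ : 1 ≤ J) {x y : Tor N} :
    ‖PhiR N J x - PhiR N J y‖ ^ 2 = 0 ↔ x = y := by
  constructor
  · intro h
    by_contra hne
    rw [ttR_eq] at h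
    unfold hk at h
    have h1 := four_dsq_ge hne
    have h2 : (0 : ℝ) < 4 ^ J * (4 * dsq x y) / (4 ^ J + 4 * dsq x y) := by
      have : 0 < dsq x y := by linarith
      positivity
    linarith
  · rintro rfl
    simp

theorem ttR_le_phi (x y : Tor N) :
    ‖PhiR N J x - PhiR N J y‖ ^ 2 ≤ 4 * dsq x y := by
  rw [ttR_eq]
  exact P365T2.H37.hk_le_right (by positivity) (by linarith [dsq_nonneg x y])

theorem fR_le_phi (x y : Tor N) :
    ∑ j, (fR N J j x - fR N J j y) ^ 2 ≤ 4 * ∑ i, (phi N i x - phi N i y) ^ 2 := by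
  rw [fR_spec]
  exact P365T2.H37.hk_le_right (by positivity) (by linarith [dsq_nonneg x y])

theorem VecLip_fR : VecLip (fR N J) 3 := by
  intro x y
  have h1 := fR_le_phi (J := J) x y
  have h2 : ∑ i, (phi N i x - phi N i y) ^ 2 ≤ 2 * (nrm (x - y) : ℝ) ^ 2 := dsq_le x y
  nlinarith [sq_nonneg (nrm (x - y) : ℝ)]

/-! ### the union family -/

variable (N J)

/-- positions together with the truncated field -/
noncomputable def uF : Fin 4 ⊕ Fin (mR N J) → Tor N → ℝ := Sum.elim (phi N) (fR N J)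

variable {N J}

theorem VecLip_uF : VecLip (uF N J) 4 := by
  intro x y
  rw [Fintype.sum_sum_type]
  simp only [uF, Sum.elim_inl, Sum.elim_inr]
  have h1 := fR_le_phi (J := J) x y
  have h2 : ∑ i, (phi N i x - phi N i y) ^ 2 ≤ 2 * (nrm (x - y) : ℝ) ^ 2 := dsq_le x y
  nlinarith [sq_nonneg (nrm (x - y) : ℝ)]

end torus

/-! ### sums over two families -/

section union

variable {ι : Type*} [Fintype ι] [DecidableEq ι] {A : Matrix ι ι ℝ}
  {Λ : Type*} [Fintype Λ] {p : Λ → ℝ} {ν : Λ → Measure ℝ} {E : ℝ}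
  {κ κ' : Type*} [Fintype κ] [Fintype κ']

theorem PhiG_elim (hA : A.IsSymm) [∀ k, IsProbabilityMeasure (ν k)] {e : (ι → Λ) → ι → ℝ}
    (he : ∀ l x, 0 < e l x) (f : κ → ι → ℝ) (g : κ' → ι → ℝ) :
    PhiG A p ν E (Sum.elim f g) e = PhiG A p ν E f e + PhiG A p ν E g e := by
  unfold PhiG AvG
  rw [← Finset.sum_add_distrib]
  refine Finset.sum_congr rfl fun l _ => ?_
  rw [← mul_add]
  congr 1
  unfold Ex
  rw [← integral_add (integrable_sum_En hA _ E (he l) f) (integrable_sum_En hA _ E (he l) g)]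
  refine integral_congr_ae (Eventually.of_forall fun v => ?_)
  simp only [Fintype.sum_sum_type, Sum.elim_inl, Sum.elim_inr]

theorem LossG_elim {e w : (ι → Λ) → ι → ℝ} (f : κ → ι → ℝ) (g : κ' → ι → ℝ) :
    LossG A p ν E (Sum.elim f g) e w = LossG A p ν E f e w + LossG A p ν E g e w := by
  unfold LossG
  rw [← Finset.sum_add_distrib]
  refine Finset.sum_congr rfl fun l _ => ?_
  rw [← mul_add, ← Finset.sum_add_distrib]
  congr 1
  refine Finset.sum_congr rfl fun x _ => ?_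
  rw [← mul_add]
  simp only [Fintype.sum_sum_type, Sum.elim_inl, Sum.elim_inr]

theorem YG_elim {e w : (ι → Λ) → ι → ℝ} (f : κ → ι → ℝ) (g : κ' → ι → ℝ) :
    YG A p ν E (Sum.elim f g) e w = YG A p ν E f e w + YG A p ν E g e w := by
  unfold YG
  rw [← Finset.sum_add_distrib]
  refine Finset.sum_congr rfl fun l _ => ?_
  rw [← mul_add, ← Finset.sum_add_distrib]
  congr 1
  refine Finset.sum_congr rfl fun x _ => ?_
  rw [← mul_add]
  simp only [Fintype.sum_sum_type, Sum.elim_inl, Sum.elim_inr]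

end union

section torus2

variable {N : ℕ} [NeZero N] {J : ℕ} {A : Matrix (Tor N) (Tor N) ℝ}
  {Λ : Type*} [Fintype Λ] {p : Λ → ℝ} {ν : Λ → Measure ℝ} {E : ℝ}

theorem PhiG_fR_le (hA : A.IsSymm) [∀ k, IsProbabilityMeasure (ν k)] (hp : ∀ k, 0 ≤ p k)
    {e : (Tor N → Λ) → Tor N → ℝ} (he : ∀ l x, 0 < e l x) :
    PhiG A p ν E (fR N J) e ≤ 4 * PhiG A p ν E (phi N) e := by
  have h1 : PhiG A p ν E (fR N J) e ≤
      PhiG A p ν E (fun i x => 2 * phi N i x) e := by
    refine PhiG_mono_fam hA hp he fun x y => (fR_le_phi x y).trans (le_of_eq ?_)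
    rw [Finset.mul_sum]
    exact Finset.sum_congr rfl fun i _ => by ring
  refine h1.trans (le_of_eq ?_)
  unfold PhiG AvG
  rw [Finset.mul_sum]
  refine Finset.sum_congr rfl fun l _ => ?_
  rw [mul_left_comm]
  congr 1
  unfold Ex
  rw [← integral_const_mul]
  refine integral_congr_ae (Eventually.of_forall fun v => ?_)
  simp only
  rw [Finset.mul_sum]
  refine Finset.sum_congr rfl fun i _ => ?_
  unfold En
  rw [Finset.mul_sum]
  refine Finset.sum_congr rfl fun x _ => ?_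
  rw [Finset.mul_sum]
  exact Finset.sum_congr rfl fun y _ => by ring

/-- energy of the union family -/
theorem PhiG_uF_le (hA : A.IsSymm) [∀ k, IsProbabilityMeasure (ν k)] (hp : ∀ k, 0 ≤ p k)
    {e : (Tor N → Λ) → Tor N → ℝ} (he : ∀ l x, 0 < e l x) :
    PhiG A p ν E (uF N J) e ≤ 5 * PhiG A p ν E (phi N) e := by
  unfold uF
  rw [PhiG_elim hA he]
  linarith [PhiG_fR_le (J := J) (E := E) hA hp he (ν := ν)]

theorem PhiG_le_uF (hA : A.IsSymm) [∀ k, IsProbabilityMeasure (ν k)] (hp : ∀ k, 0 ≤ p k)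
    {e : (Tor N → Λ) → Tor N → ℝ} (he : ∀ l x, 0 < e l x) :
    PhiG A p ν E (phi N) e ≤ PhiG A p ν E (uF N J) e := by
  unfold uF
  rw [PhiG_elim hA he]
  linarith [PhiG_nonneg (A := A) (E := E) (ν := ν) (f := fR N J) hp fun l x => (he l x).le]

end torus2

end P365T2.H320U
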