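import Vale.Agent.P365.T2.H963.ContUps
import Vale.Agent.P365.T2.Gen963
import Vale.Agent.P365.T2.UpsBd844

/-!
# P365 T2, X-UFLOW: the average of the pointwise entropy drift (844's `ups_gen`)

`drift_avg`: with `Φ = fam f`, `om = omT u w τ`,
`½ Av Pos - 65 PhiG f - 2 (T+2) √(PhiG f · LossG f) - (T+2) 4^J Av ∑ u m ≤ -Av ∑ om LLU`.
-/

set_option linter.all false

namespace P365T2.H320U

open Vale.Agent.P365.J376 P365L P365O P365T1 P365L.TL Matrix Complex MeasureTheory Filter Set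
open P365L.T2.Path
open P365T2.H844 (tt pr Vr mur Pw ur TT Pos LLU fam)
open scoped ComplexConjugate ENNReal

/-- from `2 s ≤ c a + b / c` for all `c > 0` -/
theorem le_sqrt_of_forall {a b s : ℝ} (ha : 0 ≤ a) (hb : 0 ≤ b)
    (h : ∀ c : ℝ, 0 < c → 2 * s ≤ c * a + b / c) : s ≤ Real.sqrt (a * b) := by
  by_contra hcon
  push Not at hcon
  have hs : 0 < s := lt_of_le_of_lt (Real.sqrt_nonneg _) hcon
  have hab : a * b < s ^ 2 := by
    have h1 : Real.sqrt (a * b) ^ 2 < s ^ 2 :=
      pow_lt_pow_left₀ hcon (Real.sqrt_nonneg _) (by norm_num)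
    rwa [Real.sq_sqrt (mul_nonneg ha hb)] at h1
  rcases ha.lt_or_eq with ha' | ha'
  · have h1 := h (s / a) (by positivity)
    have e1 : s / a * a = s := div_mul_cancel₀ _ ha'.ne'
    have e2 : b / (s / a) = a * b / s := by field_simp
    rw [e1, e2] at h1
    have h2 : a * b / s < s := by
      rw [div_lt_iff₀ hs]
      nlinarith
    linarith
  · subst ha'
    have h1 := h ((b + 1) / s) (by positivity)
    rw [mul_zero, zero_add] at h1
    have e2 : b / ((b + 1) / s) = b / (b + 1) * s := by field_simp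
    rw [e2] at h1
    have h2 : b / (b + 1) ≤ 1 := (div_le_one (by positivity)).2 (by linarith)
    nlinarith

/-- linear combination of integrals -/
theorem int_comb {Ω : Type*} [MeasurableSpace Ω] {μ : Measure Ω} {a b c d g : Ω → ℝ}
    (ia : Integrable a μ) (ib : Integrable b μ) (ic : Integrable c μ) (id' : Integrable d μ)
    (ig : Integrable g μ) {α β γ δ : ℝ}
    (h : ∀ v, α * a v - β * b v - γ * c v - δ * d v ≤ g v) :
    α * ∫ v, a v ∂μ - β * ∫ v, b v ∂μ - γ * ∫ v, c v ∂μ - δ * ∫ v, d v ∂μ ≤ ∫ v, g v ∂μ := by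
  have j1 : Integrable (fun v => α * a v) μ := ia.const_mul α
  have j2 : Integrable (fun v => β * b v) μ := ib.const_mul β
  have j3 : Integrable (fun v => γ * c v) μ := ic.const_mul γ
  have j4 : Integrable (fun v => δ * d v) μ := id'.const_mul δ
  have k1 : Integrable (fun v => α * a v - β * b v) μ := j1.sub j2
  have k2 : Integrable (fun v => α * a v - β * b v - γ * c v) μ := k1.sub j3
  have k3 : Integrable (fun v => α * a v - β * b v - γ * c v - δ * d v) μ := k2.sub j4
  have e : ∫ v, (α * a v - β * b v - γ * c v - δ * d v) ∂μ =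
      α * ∫ v, a v ∂μ - β * ∫ v, b v ∂μ - γ * ∫ v, c v ∂μ - δ * ∫ v, d v ∂μ := by
    rw [integral_sub k2 j4, integral_sub k1 j3, integral_sub j1 j2, integral_const_mul,
      integral_const_mul, integral_const_mul, integral_const_mul]
  rw [← e]
  exact integral_mono k3 ig h

section avg

variable {ι : Type*} [Fintype ι] [DecidableEq ι] {A : Matrix ι ι ℝ}
  {Λ : Type*} [Fintype Λ] {p : Λ → ℝ} {ν : Λ → Measure ℝ} {E : ℝ}

/-- Cauchy-Schwarz for `AvG` -/
theorem AvG_sqrt_le [∀ k, IsProbabilityMeasure (ν k)] (hp : ∀ k, 0 ≤ p k) {R : ℝ}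
    (hR : ∀ k, ν k (Icc (-R) R)ᶜ = 0) {e : (ι → Λ) → ι → ℝ} (he : ∀ l x, 0 < e l x)
    {X Y : (ι → Λ) → (ι → ℂ) → ℝ} (hX : ∀ l, ContinuousOn (X l) (LH ι))
    (hY : ∀ l, ContinuousOn (Y l) (LH ι)) (hX0 : ∀ l, ∀ W ∈ LH ι, 0 ≤ X l W)
    (hY0 : ∀ l, ∀ W ∈ LH ι, 0 ≤ Y l W) :
    AvG p ν E e (fun l W => Real.sqrt (X l W) * Real.sqrt (Y l W)) ≤
      Real.sqrt (AvG p ν E e X * AvG p ν E e Y) := by
  have hmem : ∀ l v, WV E (e l) v ∈ LH ι := fun l v => WV_mem_LH (he l) v
  have hS : ∀ l, ContinuousOn (fun W => Real.sqrt (X l W) * Real.sqrt (Y l W)) (LH ι) :=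
    fun l => (hX l).sqrt.mul (hY l).sqrt
  have hP : ∀ l : ι → Λ, 0 ≤ ∏ x, p (l x) := fun l => Finset.prod_nonneg fun x _ => hp _
  refine le_sqrt_of_forall ?_ ?_ fun c hc => ?_
  · exact Finset.sum_nonneg fun l _ => mul_nonneg (hP l)
      (integral_nonneg fun v => hX0 l _ (hmem l v))
  · exact Finset.sum_nonneg fun l _ => mul_nonneg (hP l)
      (integral_nonneg fun v => hY0 l _ (hmem l v))
  · unfold AvG
    rw [Finset.mul_sum, Finset.mul_sum, Finset.sum_div, ← Finset.sum_add_distrib]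
    refine Finset.sum_le_sum fun l _ => ?_
    have iX := integrable_of_continuousOn (hX l) (m := fun x => ν (l x)) (fun x => hR (l x))
      (E := E) (he l)
    have iY := integrable_of_continuousOn (hY l) (m := fun x => ν (l x)) (fun x => hR (l x))
      (E := E) (he l)
    have iS := integrable_of_continuousOn (hS l) (m := fun x => ν (l x)) (fun x => hR (l x))
      (E := E) (he l)
    have key : 2 * Ex (fun x => ν (l x)) E (e l)
        (fun W => Real.sqrt (X l W) * Real.sqrt (Y l W)) ≤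
        c * Ex (fun x => ν (l x)) E (e l) (X l) + Ex (fun x => ν (l x)) E (e l) (Y l) / c := by
      unfold Ex
      rw [← integral_const_mul, ← integral_const_mul, ← integral_div,
        ← integral_add (iX.const_mul c) (iY.div_const c)]
      refine integral_mono (iS.const_mul 2) ((iX.const_mul c).add (iY.div_const c)) fun v => ?_
      simp only [Pi.add_apply]
      have h1 := Real.sq_sqrt (hX0 l _ (hmem l v))
      have h2 := Real.sq_sqrt (hY0 l _ (hmem l v))
      set a := Real.sqrt (X l (WV E (e l) v)) with ha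
      set b := Real.sqrt (Y l (WV E (e l) v)) with hb
      rw [← h1, ← h2]
      have h3 : 0 ≤ (c * a - b) ^ 2 / c := by positivity
      have h4 : (c * a - b) ^ 2 / c = c * a ^ 2 + b ^ 2 / c - 2 * (a * b) := by
        field_simp
        ring
      linarith
    calc 2 * ((∏ x, p (l x)) * Ex (fun x => ν (l x)) E (e l)
          (fun W => Real.sqrt (X l W) * Real.sqrt (Y l W)))
        = (∏ x, p (l x)) * (2 * Ex (fun x => ν (l x)) E (e l)
          (fun W => Real.sqrt (X l W) * Real.sqrt (Y l W))) := by ring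
      _ ≤ (∏ x, p (l x)) * (c * Ex (fun x => ν (l x)) E (e l) (X l) +
          Ex (fun x => ν (l x)) E (e l) (Y l) / c) := mul_le_mul_of_nonneg_left key (hP l)
      _ = _ := by ring

variable {κ : Type*} [Fintype κ] {u w : (ι → Λ) → ι → ℝ}

theorem omT_nonneg (hu : ∀ l x, 0 < u l x) (hw : ∀ l x, 0 ≤ w l x) (τ : ℝ) (l : ι → Λ) (x : ι) :
    0 ≤ omT u w τ l x := by
  unfold omT eT wT
  have h1 := mul_nonneg (Real.exp_pos (-τ)).le (hw l x)
  have h2 := hu l x
  positivity

theorem omT_le_one (hu : ∀ l x, 0 < u l x) (hw : ∀ l x, 0 ≤ w l x) (τ : ℝ) (l : ι → Λ) (x : ι) :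
    omT u w τ l x ≤ 1 := by
  unfold omT eT wT
  have h1 := mul_nonneg (Real.exp_pos (-τ)).le (hw l x)
  have h2 := hu l x
  rw [div_le_one (by positivity)]
  linarith

theorem omT_mul (hu : ∀ l x, 0 < u l x) (hw : ∀ l x, 0 ≤ w l x) (τ : ℝ) (l : ι → Λ) (x : ι) :
    omT u w τ l x * eT u w τ l x = wT w τ l x := by
  unfold omT
  have h1 := mul_nonneg (Real.exp_pos (-τ)).le (hw l x)
  have h2 := hu l x
  have h3 : 0 < eT u w τ l x := by unfold eT; positivity
  exact div_mul_cancel₀ _ h3.ne'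

theorem one_sub_omT_mul (hu : ∀ l x, 0 < u l x) (hw : ∀ l x, 0 ≤ w l x) (τ : ℝ) (l : ι → Λ)
    (x : ι) : (1 - omT u w τ l x) * eT u w τ l x = u l x := by
  rw [sub_mul, omT_mul hu hw, one_mul]
  unfold eT wT
  ring

theorem eT_pos' (hu : ∀ l x, 0 < u l x) (hw : ∀ l x, 0 ≤ w l x) (τ : ℝ) (l : ι → Λ) (x : ι) :
    0 < eT u w τ l x := by
  unfold eT
  have h1 := mul_nonneg (Real.exp_pos (-τ)).le (hw l x)
  linarith [hu l x]

/-- **the averaged drift** -/
theorem drift_avg (hA : A.IsSymm) [∀ k, IsProbabilityMeasure (ν k)] (hp : ∀ k, 0 ≤ p k) {R : ℝ}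
    (hR : ∀ k, ν k (Icc (-R) R)ᶜ = 0) (hu : ∀ l x, 0 < u l x) (hw : ∀ l x, 0 ≤ w l x) {T : ℝ}
    (hT : 0 ≤ T) {J : ℕ} (hJ : 1 ≤ J) (f : κ → ι → ℝ)
    (ht : ∀ x y, ∑ k, (f k x - f k y) ^ 2 = 0 ∨ 1 ≤ ∑ k, (f k x - f k y) ^ 2)
    (ht4 : ∀ x y, ∑ k, (f k x - f k y) ^ 2 ≤ 4 ^ J) (τ : ℝ) :
    1 / 2 * AvG p ν E (eT u w τ) (fun _ W => Pos (fam f) (TT A W) (Real.exp (-T)) J) -
      65 * PhiG A p ν E f (eT u w τ) -
      2 * (T + 2) * Real.sqrt (PhiG A p ν E f (eT u w τ) *
        LossG A p ν E f (eT u w τ) (wT w τ)) -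
      (T + 2) * (4 ^ J * AvG p ν E (eT u w τ) (fun l W => ∑ x, u l x * mm A W x)) ≤
    -∑ l : ι → Λ, (∏ x, p (l x)) * ∑ y, omT u w τ l y *
      Ex (fun x => ν (l x)) E (eT u w τ l) (fun W => ∑ x, ∑ k ∈ Finset.range (J + 2),
        LLU (fam f) A W (Real.exp (-T)) J k y x) := by
  have he : ∀ l x, 0 < eT u w τ l x := eT_pos' hu hw τ
  have hε : 0 < Real.exp (-T) := Real.exp_pos _
  have hP : ∀ l : ι → Λ, 0 ≤ ∏ x, p (l x) := fun l => Finset.prod_nonneg fun x _ => hp _
  have hmem : ∀ l v, WV E (eT u w τ l) v ∈ LH ι := fun l v => WV_mem_LH (he l) v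
  have hneg : ∀ l v x, (WV E (eT u w τ l) v x).im < 0 := fun l v x => hmem l v x
  have hte : ∀ l v x, -(WV E (eT u w τ l) v x).im = eT u w τ l x := by
    intro l v x
    simp [WV]
  -- the functionals
  set X : (ι → Λ) → (ι → ℂ) → ℝ := fun l W =>
    ∑ v, omT u w τ l v * pr (TT A W) v * Vr (fam f) (TT A W) v with hXd
  set Y : (ι → Λ) → (ι → ℂ) → ℝ := fun l W =>
    ∑ v, omT u w τ l v * pr (TT A W) v * ‖mur (fam f) (TT A W) v‖ ^ 2 with hYd
  set Z : (ι → Λ) → (ι → ℂ) → ℝ := fun l W =>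
    ∑ v, (1 - omT u w τ l v) * pr (TT A W) v * Vr (fam f) (TT A W) v with hZd
  set Dn : (ι → Λ) → (ι → ℂ) → ℝ := fun l W =>
    ∑ v, pr (TT A W) v * Vr (fam f) (TT A W) v with hDd
  set Ps : (ι → Λ) → (ι → ℂ) → ℝ := fun l W =>
    Pos (fam f) (TT A W) (Real.exp (-T)) J with hPsd
  have cX : ∀ l, ContinuousOn (X l) (LH ι) := fun l =>
    (ContDiffOn.sum fun v _ => (contDiffOn_const.mul (contDiffOn_pr (n := 0) hA v)).mul
      (contDiffOn_Vr hA v)).continuousOn
  have cY : ∀ l, ContinuousOn (Y l) (LH ι) := fun l =>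
    (ContDiffOn.sum fun v _ => (contDiffOn_const.mul (contDiffOn_pr (n := 0) hA v)).mul
      (contDiffOn_mur_sq hA v)).continuousOn
  have cZ : ∀ l, ContinuousOn (Z l) (LH ι) := fun l =>
    (ContDiffOn.sum fun v _ => (contDiffOn_const.mul (contDiffOn_pr (n := 0) hA v)).mul
      (contDiffOn_Vr hA v)).continuousOn
  have cD : ∀ l, ContinuousOn (Dn l) (LH ι) := fun l =>
    (ContDiffOn.sum fun v _ => (contDiffOn_pr (n := 0) hA v).mul
      (contDiffOn_Vr hA v)).continuousOn
  have cP : ∀ l, ContinuousOn (Ps l) (LH ι) := fun l =>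
    (contDiffOn_Pos (n := 0) hA J hε).continuousOn
  have cL : ∀ y, ContinuousOn (fun W => ∑ x, ∑ k ∈ Finset.range (J + 2),
      LLU (fam f) A W (Real.exp (-T)) J k y x) (LH ι) := fun y =>
    (ContDiffOn.sum fun x _ => ContDiffOn.sum fun k _ =>
      contDiffOn_LLU (n := 0) hA hε J k y x).continuousOn
  have iC : ∀ (l : ι → Λ) {G : (ι → ℂ) → ℝ}, ContinuousOn G (LH ι) →
      Integrable (fun v => G (WV E (eT u w τ l) v)) (Measure.pi fun x => ν (l x)) :=
    fun l G hG => integrable_of_continuousOn hG (fun x => hR (l x)) (he l)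
  have hQ0 : ∀ W ∈ LH ι, ∀ x y, 0 ≤ TT A W x y := fun W hW => P365T2.H844.TT_nonneg hW
  have hp0 : ∀ W ∈ LH ι, ∀ x, 0 < pr (TT A W) x := fun W hW => P365T2.H844.pr_TT_pos hA hW
  have hV0 : ∀ W ∈ LH ι, ∀ v, 0 ≤ Vr (fam f) (TT A W) v := fun W hW v =>
    Finset.sum_nonneg fun y _ => mul_nonneg (div_nonneg (hQ0 W hW v y) (hp0 W hW v).le)
      (P365T2.H844.tt_nonneg y v)
  have X0 : ∀ l, ∀ W ∈ LH ι, 0 ≤ X l W := fun l W hW => Finset.sum_nonneg fun v _ =>
    mul_nonneg (mul_nonneg (omT_nonneg hu hw τ l v) (hp0 W hW v).le) (hV0 W hW v)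
  have Y0 : ∀ l, ∀ W ∈ LH ι, 0 ≤ Y l W := fun l W hW => Finset.sum_nonneg fun v _ =>
    mul_nonneg (mul_nonneg (omT_nonneg hu hw τ l v) (hp0 W hW v).le) (sq_nonneg _)
  -- one label configuration
  have hone : ∀ l, 1 / 2 * Ex (fun x => ν (l x)) E (eT u w τ l) (Ps l) -
      65 * Ex (fun x => ν (l x)) E (eT u w τ l) (Dn l) -
      2 * (T + 2) * Ex (fun x => ν (l x)) E (eT u w τ l)
        (fun W => Real.sqrt (X l W) * Real.sqrt (Y l W)) -
      (T + 2) * Ex (fun x => ν (l x)) E (eT u w τ l) (Z l) ≤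
      -∑ y, omT u w τ l y * Ex (fun x => ν (l x)) E (eT u w τ l)
        (fun W => ∑ x, ∑ k ∈ Finset.range (J + 2),
          LLU (fam f) A W (Real.exp (-T)) J k y x) := by
    intro l
    have iS : Integrable (fun v => Real.sqrt (X l (WV E (eT u w τ l) v)) *
        Real.sqrt (Y l (WV E (eT u w τ l) v))) (Measure.pi fun x => ν (l x)) :=
      iC l (G := fun W => Real.sqrt (X l W) * Real.sqrt (Y l W)) ((cX l).sqrt.mul (cY l).sqrt)
    have i5 : ∀ y, Integrable (fun v => omT u w τ l y * ∑ x, ∑ k ∈ Finset.range (J + 2),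
        LLU (fam f) A (WV E (eT u w τ l) v) (Real.exp (-T)) J k y x)
        (Measure.pi fun x => ν (l x)) := fun y => (iC l (cL y)).const_mul _
    have i6 : Integrable (fun v => -(∑ y, omT u w τ l y * ∑ x, ∑ k ∈ Finset.range (J + 2),
        LLU (fam f) A (WV E (eT u w τ l) v) (Real.exp (-T)) J k y x))
        (Measure.pi fun x => ν (l x)) := (integrable_finset_sum _ fun y _ => i5 y).neg
    have e5 : -∑ y, omT u w τ l y * Ex (fun x => ν (l x)) E (eT u w τ l)
          (fun W => ∑ x, ∑ k ∈ Finset.range (J + 2),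
            LLU (fam f) A W (Real.exp (-T)) J k y x) =
        ∫ v, -(∑ y, omT u w τ l y * ∑ x, ∑ k ∈ Finset.range (J + 2),
        LLU (fam f) A (WV E (eT u w τ l) v) (Real.exp (-T)) J k y x)
          ∂(Measure.pi fun x => ν (l x)) := by
      rw [integral_neg, integral_finset_sum _ fun y _ => i5 y]
      congr 1
      exact Finset.sum_congr rfl fun y _ => (integral_const_mul _ _).symm
    rw [e5]
    refine int_comb (iC l (cP l)) (iC l (cD l)) iS (iC l (cZ l)) i6 fun v => ?_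
    have h := P365T2.H844.ups_gen (Φ := fam f) (om := omT u w τ l) hA (hneg l v) hT hJ
      (fun x y => by rw [P365T2.H844.tt_fam]; exact ht x y)
      (fun x y => by rw [P365T2.H844.tt_fam]; exact ht4 x y)
      (omT_nonneg hu hw τ l) (omT_le_one hu hw τ l)
    exact h
  -- the average
  have hav : 1 / 2 * AvG p ν E (eT u w τ) Ps - 65 * AvG p ν E (eT u w τ) Dn -
      2 * (T + 2) * AvG p ν E (eT u w τ)
        (fun l W => Real.sqrt (X l W) * Real.sqrt (Y l W)) -
      (T + 2) * AvG p ν E (eT u w τ) Z ≤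
      -∑ l : ι → Λ, (∏ x, p (l x)) * ∑ y, omT u w τ l y *
        Ex (fun x => ν (l x)) E (eT u w τ l) (fun W => ∑ x, ∑ k ∈ Finset.range (J + 2),
          LLU (fam f) A W (Real.exp (-T)) J k y x) := by
    unfold AvG
    rw [Finset.mul_sum, Finset.mul_sum, Finset.mul_sum, Finset.mul_sum,
      ← Finset.sum_sub_distrib, ← Finset.sum_sub_distrib, ← Finset.sum_sub_distrib,
      ← Finset.sum_neg_distrib]
    refine Finset.sum_le_sum fun l _ => ?_
    have h := mul_le_mul_of_nonneg_left (hone l) (hP l)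
    refine le_trans (le_of_eq ?_) (h.trans (le_of_eq ?_)) <;> ring
  -- the energy
  have eD : AvG p ν E (eT u w τ) Dn = PhiG A p ν E f (eT u w τ) := by
    unfold PhiG AvG Ex
    refine Finset.sum_congr rfl fun l _ => ?_
    congr 1
    refine integral_congr_ae (Eventually.of_forall fun v => ?_)
    exact P365T2.H844.sum_pr_Vr_fam hA (hneg l v) f
  have eX : AvG p ν E (eT u w τ) X ≤ PhiG A p ν E f (eT u w τ) := by
    rw [← eD]
    refine AvG_mono hp (fun l => iC l (cX l)) (fun l => iC l (cD l)) fun l v => ?_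
    refine Finset.sum_le_sum fun z _ => ?_
    refine mul_le_mul_of_nonneg_right ?_ (hV0 _ (hmem l v) z)
    exact mul_le_of_le_one_left (hp0 _ (hmem l v) z).le (omT_le_one hu hw τ l z)
  have eY : AvG p ν E (eT u w τ) Y = LossG A p ν E f (eT u w τ) (wT w τ) / 2 := by
    unfold LossG AvG
    rw [Finset.sum_div]
    refine Finset.sum_congr rfl fun l _ => ?_
    rw [mul_div_assoc]
    congr 1
    unfold Ex
    have e1 : ∀ v, Y l (WV E (eT u w τ l) v) =
        ∑ x, ∑ k, wT w τ l x * (lossS A (WV E (eT u w τ l) v) (f k) x / 2) := by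
      intro v
      simp only [hYd]
      refine Finset.sum_congr rfl fun x _ => ?_
      rw [P365T2.H844.mur_fam hA (hneg l v), P365T2.H844.pr_TT hA (hneg l v), hte, ← mul_assoc,
        omT_mul hu hw, Finset.mul_sum]
      refine Finset.sum_congr rfl fun k _ => ?_
      unfold lossS
      ring
    rw [integral_congr_ae (Eventually.of_forall e1), integral_finset_sum]
    · rw [Finset.sum_div]
      refine Finset.sum_congr rfl fun x _ => ?_
      rw [integral_finset_sum]
      · rw [mul_div_assoc, Finset.sum_div, Finset.mul_sum]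
        refine Finset.sum_congr rfl fun k _ => ?_
        rw [integral_const_mul, integral_div]
      · intro k _
        exact ((integrable_lossS hA _ E (he l) (f k) x).div_const 2).const_mul _
    · intro x _
      exact integrable_finset_sum _ fun k _ =>
        ((integrable_lossS hA _ E (he l) (f k) x).div_const 2).const_mul _
  have hPhi0 : 0 ≤ PhiG A p ν E f (eT u w τ) := PhiG_nonneg hp fun l x => (he l x).le
  have hLoss0 : 0 ≤ LossG A p ν E f (eT u w τ) (wT w τ) :=
    LossG_nonneg hA hp he fun l x => mul_nonneg (Real.exp_pos _).le (hw l x)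
  have eS : AvG p ν E (eT u w τ) (fun l W => Real.sqrt (X l W) * Real.sqrt (Y l W)) ≤
      Real.sqrt (PhiG A p ν E f (eT u w τ) * LossG A p ν E f (eT u w τ) (wT w τ)) := by
    refine (AvG_sqrt_le hp hR he cX cY X0 Y0).trans (Real.sqrt_le_sqrt ?_)
    rw [eY]
    have h1 : 0 ≤ LossG A p ν E f (eT u w τ) (wT w τ) / 2 := by positivity
    calc AvG p ν E (eT u w τ) X * (LossG A p ν E f (eT u w τ) (wT w τ) / 2)
        ≤ PhiG A p ν E f (eT u w τ) * (LossG A p ν E f (eT u w τ) (wT w τ) / 2) :=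
          mul_le_mul_of_nonneg_right eX h1
      _ ≤ _ := mul_le_mul_of_nonneg_left (by linarith) hPhi0
  -- the static share
  have cM : ∀ l, ContinuousOn (fun W => ∑ x, u l x * mm A W x) (LH ι) := fun l =>
    (ContDiffOn.sum fun x _ => contDiffOn_const.mul (contDiffOn_mm (n := 0) hA x)).continuousOn
  have eZ : AvG p ν E (eT u w τ) Z ≤
      4 ^ J * AvG p ν E (eT u w τ) (fun l W => ∑ x, u l x * mm A W x) := by
    have h1 : AvG p ν E (eT u w τ) Z ≤
        AvG p ν E (eT u w τ) (fun l W => 4 ^ J * ∑ x, u l x * mm A W x) := by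
      refine AvG_mono hp (fun l => iC l (cZ l)) (fun l => (iC l (cM l)).const_mul _)
        fun l v => ?_
      simp only [hZd]
      rw [Finset.mul_sum]
      refine Finset.sum_le_sum fun z _ => ?_
      have h2 : Vr (fam f) (TT A (WV E (eT u w τ l) v)) z ≤ 4 ^ J := by
        unfold Vr
        calc ∑ y, TT A (WV E (eT u w τ l) v) z y / pr (TT A (WV E (eT u w τ l) v)) z *
              tt (fam f) y z
            ≤ ∑ y, TT A (WV E (eT u w τ l) v) z y / pr (TT A (WV E (eT u w τ l) v)) z * 4 ^ J :=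
              Finset.sum_le_sum fun y _ => mul_le_mul_of_nonneg_left
                (by rw [P365T2.H844.tt_fam]; exact ht4 y z)
                (div_nonneg (hQ0 _ (hmem l v) z y) (hp0 _ (hmem l v) z).le)
          _ = 4 ^ J := by
              rw [← Finset.sum_mul, ← Finset.sum_div]
              have h3 : (∑ y, TT A (WV E (eT u w τ l) v) z y) =
                  pr (TT A (WV E (eT u w τ l) v)) z := rfl
              rw [h3, div_self (hp0 _ (hmem l v) z).ne', one_mul]
      have h4 : (1 - omT u w τ l z) * pr (TT A (WV E (eT u w τ l) v)) z =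
          u l z * mm A (WV E (eT u w τ l) v) z := by
        rw [P365T2.H844.pr_TT hA (hneg l v), hte, ← mul_assoc, one_sub_omT_mul hu hw]
      rw [h4, mul_comm ((4 : ℝ) ^ J)]
      refine mul_le_mul_of_nonneg_left h2 ?_
      exact mul_nonneg (hu l z).le (mm_pos hA (hneg l v) z).le
    refine h1.trans (le_of_eq ?_)
    unfold AvG
    rw [Finset.mul_sum]
    refine Finset.sum_congr rfl fun l _ => ?_
    unfold Ex
    rw [integral_const_mul]
    ring
  rw [eD] at hav
  have hT2 : 0 ≤ T + 2 := by linarith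
  have g1 := mul_le_mul_of_nonneg_left eS (by positivity : 0 ≤ 2 * (T + 2))
  have g2 := mul_le_mul_of_nonneg_left eZ hT2
  refine le_trans ?_ hav
  linarith

end avg

end P365T2.H320U
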