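import Vale.Agent.P365.V4.HubYG937
import Vale.Agent.P365.T2.Cnd629
import Vale.Agent.P365.T2.Para37

/-!
# P365 T2, X-UFLOW: hub part

* `exists_kfam`: the kernel `h_{4^k}(|x-y|_F²)` is `∑_j (f_j x - f_j y)²` for a finite family `f`;
* `exists_Hfam`: the same for 37's cumulative kernels `Hc J k`;
* `YG_kfam_le`, `sum_YG_le`, `sum_sqrt_le`: hub sums over the scales from 213's (k2).
-/

set_option linter.all false

namespace P365T2.H320U

open Vale.Agent.P365.J376 P365L P365O P365T1 P365L.TL Matrix Complex MeasureTheory Filter Set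
open scoped ComplexConjugate ENNReal

/-! ### families of test functions for the kernels -/

section fam

variable {ι : Type*} [Fintype ι] {κ : Type*} [Fintype κ]

/-- squared distance of the position field -/
noncomputable def dF (F : κ → ι → ℝ) (x y : ι) : ℝ := ∑ k, (F k x - F k y) ^ 2

theorem dF_nonneg (F : κ → ι → ℝ) (x y : ι) : 0 ≤ dF F x y :=
  Finset.sum_nonneg fun _ _ => sq_nonneg _

theorem dF_comm (F : κ → ι → ℝ) (x y : ι) : dF F x y = dF F y x :=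
  Finset.sum_congr rfl fun k _ => by ring

theorem dF_self (F : κ → ι → ℝ) (x : ι) : dF F x x = 0 := by simp [dF]

theorem norm_toLp_sq (F : κ → ι → ℝ) (x y : ι) :
    ‖(WithLp.toLp 2 fun k => F k x : EuclideanSpace ℝ κ) -
      WithLp.toLp 2 fun k => F k y‖ ^ 2 = dF F x y := by
  rw [EuclideanSpace.norm_sq_eq]
  unfold dF
  refine Finset.sum_congr rfl fun k _ => ?_
  simp [Real.norm_eq_abs, sq_abs]

/-- the kernel `h_{4^k}` of the position field -/
theorem exists_kfam (F : κ → ι → ℝ) (k : ℕ) : ∃ (m : ℕ) (f : Fin m → ι → ℝ),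
    (∀ x y, ∑ j, (f j x - f j y) ^ 2 = P365T2.H37.hk ((4 : ℝ) ^ k) (dF F x y)) ∧
    ∀ x, ∑ j, f j x ^ 2 = (4 : ℝ) ^ k / 2 := by
  obtain ⟨m, f, h1, h2, -⟩ := P365T2.Cnd.exists_fam
    (q := fun x : ι => (WithLp.toLp 2 fun k => F k x : EuclideanSpace ℝ κ))
    (r := (2 : ℝ) ^ k) (by positivity)
  have e : ((2 : ℝ) ^ k) ^ 2 = 4 ^ k := by
    rw [← pow_mul, mul_comm k 2, pow_mul]
    norm_num
  refine ⟨m, f, fun x y => ?_, fun x => ?_⟩
  · rw [h1 x y, norm_toLp_sq, e]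
    rfl
  · rw [h2 x, e]

/-- the cumulative kernels `0, h_1, h_4, ..., h_{4^J}, t` of the position field -/
theorem exists_Hfam (F : κ → ι → ℝ) (J k : ℕ) : ∃ (m : ℕ) (f : Fin m → ι → ℝ),
    ∀ x y, ∑ j, (f j x - f j y) ^ 2 = P365T2.H37.Hc J k (dF F x y) := by
  unfold P365T2.H37.Hc
  by_cases h0 : k = 0
  · refine ⟨0, fun _ _ => 0, fun x y => ?_⟩
    simp [h0]
  · by_cases h1 : k ≤ J + 1
    · obtain ⟨m, f, hf, -⟩ := exists_kfam F (k - 1)
      refine ⟨m, f, fun x y => ?_⟩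
      rw [if_neg h0, if_pos h1]
      exact hf x y
    · refine ⟨Fintype.card κ, fun j => F ((Fintype.equivFin κ).symm j), fun x y => ?_⟩
      rw [if_neg h0, if_neg h1]
      exact (Fintype.equivFin κ).symm.sum_comp fun k => (F k x - F k y) ^ 2

/-- number of functions of the `k`-th family -/
noncomputable def kn (F : κ → ι → ℝ) (J k : ℕ) : ℕ := (exists_Hfam F J k).choose

/-- the `k`-th family -/
noncomputable def kf (F : κ → ι → ℝ) (J k : ℕ) : Fin (kn F J k) → ι → ℝ :=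
  (exists_Hfam F J k).choose_spec.choose

theorem kf_spec (F : κ → ι → ℝ) (J k : ℕ) (x y : ι) :
    ∑ j, (kf F J k j x - kf F J k j y) ^ 2 = P365T2.H37.Hc J k (dF F x y) :=
  (exists_Hfam F J k).choose_spec.choose_spec x y

theorem Hc_le (J k : ℕ) {t : ℝ} (ht : 0 ≤ t) : P365T2.H37.Hc J k t ≤ t := by
  unfold P365T2.H37.Hc
  split_ifs
  · exact ht
  · exact P365T2.H37.hk_le_right (by positivity) ht
  · exact le_rfl

theorem Hc_nonneg (J k : ℕ) {t : ℝ} (ht : 0 ≤ t) : 0 ≤ P365T2.H37.Hc J k t := by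
  unfold P365T2.H37.Hc
  split_ifs
  · exact le_rfl
  · exact P365T2.H37.hk_nonneg (by positivity) ht
  · exact ht

theorem kf_le (F : κ → ι → ℝ) (J k : ℕ) (x y : ι) :
    ∑ j, (kf F J k j x - kf F J k j y) ^ 2 ≤ ∑ a, (F a x - F a y) ^ 2 := by
  rw [kf_spec]
  exact Hc_le J k (dF_nonneg F x y)

/-- kernel form of the energy of a family -/
theorem sum_En {ι : Type*} [Fintype ι] [DecidableEq ι] {κ : Type*} [Fintype κ]
    (A : Matrix ι ι ℝ) (W : ι → ℂ) (f : κ → ι → ℝ) :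
    ∑ j, En A W (f j) = ∑ x, ∑ y, (-(W x).im) * (-(W y).im) * KK A W x y * dF f x y := by
  unfold En dF
  rw [Finset.sum_comm]
  refine Finset.sum_congr rfl fun x _ => ?_
  rw [Finset.sum_comm]
  refine Finset.sum_congr rfl fun y _ => ?_
  rw [Finset.mul_sum]

theorem sum_En_mono {ι : Type*} [Fintype ι] [DecidableEq ι] {κ κ' : Type*} [Fintype κ]
    [Fintype κ'] {A : Matrix ι ι ℝ} {W : ι → ℂ} (hW : ∀ x, (W x).im < 0) {f : κ → ι → ℝ}
    {g : κ' → ι → ℝ} (h : ∀ x y, ∑ j, (f j x - f j y) ^ 2 ≤ ∑ j, (g j x - g j y) ^ 2) :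
    ∑ j, En A W (f j) ≤ ∑ j, En A W (g j) := by
  rw [sum_En, sum_En]
  refine Finset.sum_le_sum fun x _ => Finset.sum_le_sum fun y _ => ?_
  refine mul_le_mul_of_nonneg_left (h x y) ?_
  exact mul_nonneg (mul_nonneg (by linarith [hW x]) (by linarith [hW y])) (sq_nonneg _)

end fam

/-! ### averages -/

section avg

variable {ι : Type*} [Fintype ι] [DecidableEq ι] {A : Matrix ι ι ℝ}
  {Λ : Type*} [Fintype Λ] {p : Λ → ℝ} {ν : Λ → Measure ℝ} {E : ℝ}
  {κ κ' : Type*} [Fintype κ] [Fintype κ']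

theorem PhiG_mono_fam (hA : A.IsSymm) [∀ k, IsProbabilityMeasure (ν k)] (hp : ∀ k, 0 ≤ p k)
    {e : (ι → Λ) → ι → ℝ} (he : ∀ l x, 0 < e l x) {f : κ → ι → ℝ} {g : κ' → ι → ℝ}
    (h : ∀ x y, ∑ j, (f j x - f j y) ^ 2 ≤ ∑ j, (g j x - g j y) ^ 2) :
    PhiG A p ν E f e ≤ PhiG A p ν E g e := by
  refine AvG_mono hp (fun l => integrable_sum_En hA _ E (he l) f)
    (fun l => integrable_sum_En hA _ E (he l) g) fun l v => ?_
  refine sum_En_mono (fun x => ?_) h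
  rw [P365T1.WV_im]
  linarith [he l x]

end avg

/-! ### hub sums on the torus -/

section torus

variable {N : ℕ} [NeZero N] {A : Matrix (Tor N) (Tor N) ℝ}
  {Λ : Type*} [Fintype Λ] {p : Λ → ℝ} {ν : Λ → Measure ℝ} {E : ℝ}
  {κ : Type} [Fintype κ]

theorem VecLip.kf {F : κ → Tor N → ℝ} {Lf : ℝ} (hF : VecLip F Lf) (J k : ℕ) :
    VecLip (kf F J k) Lf := fun x y => (kf_le F J k x y).trans (hF x y)

/-- 213's (k2): the hub inequality for every Lipschitz family of test functions -/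
def K2 (A : Matrix (Tor N) (Tor N) ℝ) (p : Λ → ℝ) (ν : Λ → Measure ℝ) (E : ℝ)
    (e w : (Tor N → Λ) → Tor N → ℝ) (η : ℝ) : Prop :=
  ∀ (m : ℕ) (F : Fin m → Tor N → ℝ) (Lf : ℝ), 0 ≤ Lf → VecLip F Lf →
    YG A p ν E F e w ≤ η * (PhiG A p ν E F e + Lf ^ 2 * (N : ℝ) ^ 2)

/-- the hub at one scale -/
theorem YG_kf_le (hA : A.IsSymm) [∀ k, IsProbabilityMeasure (ν k)] (hp : ∀ k, 0 ≤ p k)
    {e w : (Tor N → Λ) → Tor N → ℝ} (he : ∀ l x, 0 < e l x) {η : ℝ} (hη : 0 ≤ η)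
    (h : K2 A p ν E e w η) {F : κ → Tor N → ℝ} {Lf : ℝ} (hL : 0 ≤ Lf) (hF : VecLip F Lf)
    (J k : ℕ) :
    YG A p ν E (kf F J k) e w ≤ η * (PhiG A p ν E F e + Lf ^ 2 * (N : ℝ) ^ 2) := by
  refine (h _ _ Lf hL (VecLip.kf hF J k)).trans (mul_le_mul_of_nonneg_left ?_ hη)
  have := PhiG_mono_fam (E := E) (ν := ν) hA hp he (f := kf F J k) (g := F) (kf_le F J k)
  linarith

/-- **(H2)** sum over the scales -/
theorem sum_YG_le (hA : A.IsSymm) [∀ k, IsProbabilityMeasure (ν k)] (hp : ∀ k, 0 ≤ p k)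
    {e w : (Tor N → Λ) → Tor N → ℝ} (he : ∀ l x, 0 < e l x) {η : ℝ} (hη : 0 ≤ η)
    (h : K2 A p ν E e w η) {F : κ → Tor N → ℝ} {Lf : ℝ} (hL : 0 ≤ Lf) (hF : VecLip F Lf)
    (J : ℕ) (s : Finset ℕ) :
    ∑ k ∈ s, YG A p ν E (kf F J k) e w ≤
      s.card * (η * (PhiG A p ν E F e + Lf ^ 2 * (N : ℝ) ^ 2)) := by
  calc _ ≤ ∑ _k ∈ s, η * (PhiG A p ν E F e + Lf ^ 2 * (N : ℝ) ^ 2) :=
        Finset.sum_le_sum fun k _ => YG_kf_le hA hp he hη h hL hF J k
    _ = _ := by rw [Finset.sum_const, nsmul_eq_mul]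

/-- **(H2')** Cauchy-Schwarz form: `∑_k √(YG_k Φ_k) ≤ (number of scales) √η (Φ + c)` -/
theorem sum_sqrt_le (hA : A.IsSymm) [∀ k, IsProbabilityMeasure (ν k)] (hp : ∀ k, 0 ≤ p k)
    {e w : (Tor N → Λ) → Tor N → ℝ} (he : ∀ l x, 0 < e l x) {η : ℝ} (hη : 0 ≤ η)
    (h : K2 A p ν E e w η) {F : κ → Tor N → ℝ} {Lf : ℝ} (hL : 0 ≤ Lf) (hF : VecLip F Lf)
    (J : ℕ) (s : Finset ℕ) :
    ∑ k ∈ s, Real.sqrt (YG A p ν E (kf F J k) e w * PhiG A p ν E (kf F J k) e) ≤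
      s.card * (Real.sqrt η * (PhiG A p ν E F e + Lf ^ 2 * (N : ℝ) ^ 2)) := by
  set B : ℝ := PhiG A p ν E F e + Lf ^ 2 * (N : ℝ) ^ 2 with hB
  have hP : 0 ≤ PhiG A p ν E F e := PhiG_nonneg hp fun l x => (he l x).le
  have hB0 : 0 ≤ B := by positivity
  calc _ ≤ ∑ _k ∈ s, Real.sqrt η * B := by
        refine Finset.sum_le_sum fun k _ => ?_
        have h1 := YG_kf_le (E := E) (ν := ν) hA hp he hη h hL hF J k
        have h2 := PhiG_mono_fam (E := E) (ν := ν) hA hp he (f := kf F J k) (g := F) (kf_le F J k)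
        have h3 : PhiG A p ν E (kf F J k) e ≤ B := by
          have : 0 ≤ Lf ^ 2 * (N : ℝ) ^ 2 := by positivity
          linarith
        have h4 : 0 ≤ PhiG A p ν E (kf F J k) e := PhiG_nonneg hp fun l x => (he l x).le
        rw [Real.sqrt_le_left (by positivity)]
        calc YG A p ν E (kf F J k) e w * PhiG A p ν E (kf F J k) e ≤ (η * B) * B := by
              exact mul_le_mul h1 h3 h4 (by positivity)
          _ = (Real.sqrt η * B) ^ 2 := by
              rw [mul_pow, Real.sq_sqrt hη]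
              ring
    _ = _ := by rw [Finset.sum_const, nsmul_eq_mul]

end torus

end P365T2.H320U
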