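import Vale.Agent.P365.T2.OneDet905
import Vale.Agent.P365.T2.UpsBd844

/-!
# P365 T2, X-ONEASM: the kernels of 844's entropy as a kernel family of 905's `one_det`

`kerR D J : Ker D ℕ 1`: `Sc = range (J + 2)`, `rad k = √(rho k)`, `w k x y = uk J k (d2 x y)`.

* `kerR_u`: `u k x = ur Φ Q J k x`;
* `scl`: every mobile row has a scale with `c1 = θ / 144` (all squared distances `0` or in
  `[1, 4^J]`);
* `Pos_le`: 905's `Pos` is at most 844's `Pos`.
-/

set_option linter.all false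

namespace P365T2.H320K

open Finset P365T2.H905 P365T2.H37

variable {ι κ : Type*} [Fintype ι] [Fintype κ]

theorem sqrt_rho_sq (k : ℕ) : Real.sqrt (rho k) ^ 2 = rho k := Real.sq_sqrt (rho_pos k).le

/-- the kernel family of the one-body entropy -/
noncomputable def kerR (D : Dat ι κ) (J : ℕ) : Ker D ℕ 1 where
  Sc := range (J + 2)
  rad k := Real.sqrt (rho k)
  w k x y := uk J k (D.d2 x y)
  hr := fun s _ => Real.sqrt_pos.2 (rho_pos s)
  hw := fun s x y => uk_nonneg (D.d2_nonneg x y)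
  hs := fun x y => by
    have h1 : ∀ s ∈ range (J + 2), Real.sqrt (rho s) ^ 2 * uk J s (D.d2 x y) =
        wk J s (D.d2 x y) := by
      intro s _
      rw [sqrt_rho_sq, uk, mul_div_cancel₀ _ (rho_pos s).ne']
    rw [sum_congr rfl h1, sum_wk, one_mul]

@[simp] theorem kerR_Sc (D : Dat ι κ) (J : ℕ) : (kerR D J).Sc = range (J + 2) := rfl

theorem kerR_rad (D : Dat ι κ) (J k : ℕ) : (kerR D J).rad k = Real.sqrt (rho k) := rfl

theorem kerR_rad_sq (D : Dat ι κ) (J k : ℕ) : (kerR D J).rad k ^ 2 = rho k := sqrt_rho_sq k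

theorem kerR_w (D : Dat ι κ) (J k : ℕ) (x y : ι) : (kerR D J).w k x y = uk J k (D.d2 x y) := rfl

/-- `rad (j + 1) = 2^j` -/
theorem rad_succ (D : Dat ι κ) (J j : ℕ) : (kerR D J).rad (j + 1) = 2 ^ j := by
  rw [kerR_rad, rho, if_neg (Nat.succ_ne_zero j), Nat.add_sub_cancel,
    show (4 : ℝ) ^ j = (2 ^ j) ^ 2 by rw [← pow_mul, mul_comm j 2, pow_mul]; norm_num]
  exact Real.sqrt_sq (by positivity)

theorem rad_zero (D : Dat ι κ) (J : ℕ) : 1 / 2 ≤ (kerR D J).rad 0 := by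
  rw [kerR_rad, rho, if_pos rfl]
  refine Real.le_sqrt_of_sq_le ?_
  norm_num

/-- lower bound of the kernels -/
theorem uk_lower {J j : ℕ} (hj : j ≤ J) {t : ℝ} (ht : (4 : ℝ) ^ j / 4 ≤ t) :
    1 / 36 ≤ uk J (j + 1) t := by
  have ha : (0 : ℝ) < 4 ^ j := by positivity
  have ht0 : 0 < t := by linarith
  rcases Nat.lt_or_ge j J with h | h
  · rw [uk_mid h ht0.le, le_div_iff₀ (by positivity), pow_succ]
    have h1 : (4 : ℝ) ^ j ≤ 4 * t := by linarith
    have h2 : ((4 : ℝ) ^ j * 4 + t) * (4 ^ j + t) ≤ (17 * t) * (5 * t) :=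
      mul_le_mul (by linarith) (by linarith) (by positivity) (by positivity)
    nlinarith
  · have hjJ : j = J := le_antisymm hj h
    subst hjJ
    rw [uk_last ht0.le, le_div_iff₀ (by positivity)]
    have h1 : (4 : ℝ) ^ j ≤ 4 * t := by linarith
    have h2 : (4 : ℝ) ^ j * (4 ^ j + t) ≤ (4 * t) * (5 * t) :=
      mul_le_mul h1 (by linarith) (by positivity) (by positivity)
    nlinarith

theorem uk_zero_lower {J : ℕ} {t : ℝ} (ht : 1 ≤ t) : 1 / 36 ≤ uk J 0 t := by
  rw [uk_first (by linarith), le_div_iff₀ (by positivity)]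
  linarith

/-- Jensen: `l² ≤ V` -/
theorem l_sq_le (D : Dat ι κ) (v : ι) : D.l v ^ 2 ≤ D.V v := by
  unfold Dat.l Dat.V
  have h1 := Finset.sum_mul_sq_le_sq_mul_sq univ (fun x => Real.sqrt (D.P v x))
    (fun x => Real.sqrt (D.P v x) * D.dd v x)
  have e1 : ∀ x, Real.sqrt (D.P v x) * (Real.sqrt (D.P v x) * D.dd v x) =
      D.P v x * D.dd v x := by
    intro x
    rw [← mul_assoc, Real.mul_self_sqrt (D.P_nonneg v x)]
  have e2 : ∀ x, (Real.sqrt (D.P v x) * D.dd v x) ^ 2 = D.P v x * D.d2 v x := by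
    intro x
    rw [mul_pow, Real.sq_sqrt (D.P_nonneg v x), D.dd_sq]
  have e3 : ∀ x, Real.sqrt (D.P v x) ^ 2 = D.P v x := fun x => Real.sq_sqrt (D.P_nonneg v x)
  simp only [e1, e2, e3, D.sum_P, one_mul] at h1
  exact h1

theorem V_le (D : Dat ι κ) {R : ℝ} (h : ∀ x y, D.d2 x y ≤ R) (v : ι) : D.V v ≤ R := by
  calc D.V v ≤ ∑ x, D.P v x * R :=
        sum_le_sum fun x _ => mul_le_mul_of_nonneg_left (h v x) (D.P_nonneg v x)
    _ = R := by rw [← sum_mul, D.sum_P, one_mul]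

/-- one mobile row has a scale -/
theorem exists_scale (D : Dat ι κ) {J : ℕ}
    (h1 : ∀ x y, D.d2 x y = 0 ∨ 1 ≤ D.d2 x y) (h4 : ∀ x y, D.d2 x y ≤ 4 ^ J) {θ : ℝ}
    (hθ : 0 < θ) {v : ι} (hV : 0 < D.V v) (hm : θ * D.V v ≤ D.l v ^ 2) :
    ∃ s : ℕ, s ∈ range (J + 2) ∧ D.l v ≤ 2 * (kerR D J).rad s ∧
      θ / 144 ≤ (kerR D J).u s v := by
  have hl : 0 < D.l v := by
    have h2 : 0 < D.l v ^ 2 := lt_of_lt_of_le (mul_pos hθ hV) hm
    rcases (D.l_nonneg v).lt_or_eq with h | h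
    · exact h
    · rw [← h] at h2; norm_num at h2
  have hd : ∀ x, 0 < D.dd v x → 1 ≤ D.d2 v x := by
    intro x hx
    rcases h1 v x with h | h
    · rw [Dat.dd, h, Real.sqrt_zero] at hx
      exact absurd hx (lt_irrefl 0)
    · exact h
  rcases lt_or_ge (D.l v) 1 with hl1 | hl1
  · refine ⟨0, mem_range.2 (by omega), by linarith [rad_zero D J], ?_⟩
    have hmf := D.mass_far hV hm
    calc θ / 144 = 1 / 36 * (θ / 4) := by ring
      _ ≤ 1 / 36 * ∑ x ∈ univ.filter (fun x => D.l v / 2 ≤ D.dd v x), D.P v x :=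
          mul_le_mul_of_nonneg_left hmf (by norm_num)
      _ = ∑ x ∈ univ.filter (fun x => D.l v / 2 ≤ D.dd v x), D.P v x * (1 / 36) := by
          rw [mul_sum]
          exact sum_congr rfl fun x _ => mul_comm _ _
      _ ≤ ∑ x ∈ univ.filter (fun x => D.l v / 2 ≤ D.dd v x), D.P v x * (kerR D J).w 0 v x := by
          refine sum_le_sum fun x hx => mul_le_mul_of_nonneg_left ?_ (D.P_nonneg v x)
          have hx' := (mem_filter.1 hx).2
          rw [kerR_w]
          exact uk_zero_lower (hd x (by linarith))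
      _ ≤ (kerR D J).u 0 v := by
          unfold Ker.u
          exact sum_le_sum_of_subset_of_nonneg (filter_subset _ _)
            fun x _ _ => mul_nonneg (D.P_nonneg v x) ((kerR D J).hw 0 v x)
  · obtain ⟨j, hj1, hj2⟩ := exists_nat_pow_near hl1 (by norm_num : (1 : ℝ) < 2)
    have hlJ : D.l v ≤ 2 ^ J := by
      have h2 := (l_sq_le D v).trans (V_le D h4 v)
      have h3 : (4 : ℝ) ^ J = (2 ^ J) ^ 2 := by
        rw [← pow_mul, mul_comm J 2, pow_mul]; norm_num
      rw [h3] at h2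
      exact le_of_sq_le_sq h2 (by positivity)
    have hjJ : j ≤ J := by
      have h2 : (2 : ℝ) ^ j ≤ 2 ^ J := hj1.trans hlJ
      exact (pow_le_pow_iff_right₀ (by norm_num : (1 : ℝ) < 2)).1 h2
    refine ⟨j + 1, mem_range.2 (by omega), ?_, ?_⟩
    · rw [rad_succ]
      rw [pow_succ] at hj2
      linarith
    · have h2 := (kerR D J).u_ge (v := v) (θ := θ) (cw := 1 / 36) (s := j + 1) hV hm
        (by rw [rad_succ]; exact hj1) (by norm_num) (by
          intro x hx
          rw [rad_succ] at hx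
          rw [kerR_w]
          refine uk_lower hjJ ?_
          have h3 : (4 : ℝ) ^ j = (2 ^ j) ^ 2 := by
            rw [← pow_mul, mul_comm j 2, pow_mul]; norm_num
          have h5 := D.dd_sq v x
          have h6 : (0 : ℝ) < 2 ^ j := by positivity
          rw [← h5, h3]
          nlinarith)
      calc θ / 144 = 1 / 36 * (θ / 4) := by ring
        _ ≤ _ := h2

/-- **scales of the mobile rows** -/
theorem scl (D : Dat ι κ) {J : ℕ}
    (h1 : ∀ x y, D.d2 x y = 0 ∨ 1 ≤ D.d2 x y) (h4 : ∀ x y, D.d2 x y ≤ 4 ^ J) {θ : ℝ}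
    (hθ : 0 < θ) (Mv : Finset ι) :
    ∃ sv : ι → ℕ, (kerR D J).Scl Mv θ (θ / 144) sv := by
  classical
  have h : ∀ v, ∃ s : ℕ, v ∈ D.mob Mv θ → s ∈ range (J + 2) ∧
      D.l v ≤ 2 * (kerR D J).rad s ∧ θ / 144 ≤ (kerR D J).u s v := by
    intro v
    by_cases hv : v ∈ D.mob Mv θ
    · have h2 := (mem_filter.1 hv).2
      obtain ⟨s, hs⟩ := exists_scale D h1 h4 hθ h2.1 h2.2
      exact ⟨s, fun _ => hs⟩
    · exact ⟨0, fun hh => absurd hh hv⟩
  choose sv hsv using h
  exact ⟨sv, fun v hv => hsv v hv⟩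

/-! ### comparison with 844's objects -/

section cmp

variable {E : Type*} [NormedAddCommGroup E] [InnerProductSpace ℝ E] {D : Dat ι κ} {Φ : ι → E}
  {Q : ι → ι → ℝ}

theorem pr_eq (hQ : ∀ x y, Q x y = D.e x * D.e y * D.K x y) (x : ι) :
    P365T2.H844.pr Q x = D.pw x := by
  unfold P365T2.H844.pr Dat.pw
  rw [← D.hW x, mul_sum]
  exact sum_congr rfl fun y _ => by rw [hQ]; ring

theorem P_eq (hQ : ∀ x y, Q x y = D.e x * D.e y * D.K x y) (x y : ι) :
    Q x y / P365T2.H844.pr Q x = D.P x y := by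
  rw [pr_eq hQ, hQ]
  unfold Dat.pw Dat.P
  have h1 := (D.he x).ne'
  have h2 := (D.hm x).ne'
  field_simp

theorem Pw_eq (hΦ : ∀ x y, P365T2.H844.tt Φ x y = D.d2 x y)
    (hQ : ∀ x y, Q x y = D.e x * D.e y * D.K x y) (J k : ℕ) (x : ι) :
    P365T2.H844.Pw Φ Q J k x x = rho k * (kerR D J).u k x := by
  unfold P365T2.H844.Pw Ker.u
  rw [mul_sum]
  refine sum_congr rfl fun y _ => ?_
  rw [P_eq hQ, hΦ, kerR_w, uk]
  have := (rho_pos k).ne'
  field_simp

theorem kerR_u (hΦ : ∀ x y, P365T2.H844.tt Φ x y = D.d2 x y)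
    (hQ : ∀ x y, Q x y = D.e x * D.e y * D.K x y) (J k : ℕ) (x : ι) :
    P365T2.H844.ur Φ Q J k x = (kerR D J).u k x := by
  unfold P365T2.H844.ur
  rw [Pw_eq hΦ hQ, mul_div_cancel_left₀ _ (rho_pos k).ne']

/-- **905's `Pos` is at most 844's `Pos`** -/
theorem Pos_le (hΦ : ∀ x y, P365T2.H844.tt Φ x y = D.d2 x y)
    (hQ : ∀ x y, Q x y = D.e x * D.e y * D.K x y) {ε : ℝ} (hε : 0 < ε) (J : ℕ)
    (Mv : Finset ι) :
    (kerR D J).Pos (fun a b => (a - b) * Real.log ((a + ε) / (b + ε))) Mv ≤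
      P365T2.H844.Pos Φ Q ε J := by
  unfold Ker.Pos P365T2.H844.Pos
  rw [kerR_Sc]
  refine sum_le_sum fun k _ => ?_
  rw [kerR_rad_sq, mul_sum]
  have hu : ∀ x, 0 ≤ (kerR D J).u k x := fun x => (kerR D J).u_nonneg k x
  have hr := rho_pos k
  -- each term
  have key : ∀ v x, 0 ≤ ((kerR D J).u k v - (kerR D J).u k x) *
      Real.log (((kerR D J).u k v + ε) / ((kerR D J).u k x + ε)) := fun v x =>
    Ker.posFam_log.1 ε _ _ hε (hu v) (hu x)
  have hterm : ∀ x v, Q x v * ((P365T2.H844.lamf ε (P365T2.H844.ur Φ Q J k x) -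
      P365T2.H844.lamf ε (P365T2.H844.ur Φ Q J k v)) *
      (P365T2.H844.Pw Φ Q J k v v - P365T2.H844.Pw Φ Q J k x x)) =
      rho k * (D.pw v * D.P v x * (((kerR D J).u k v - (kerR D J).u k x) *
        Real.log (((kerR D J).u k v + ε) / ((kerR D J).u k x + ε)))) := by
    intro x v
    have h1 := hu x
    have h2 := hu v
    rw [kerR_u hΦ hQ, kerR_u hΦ hQ, Pw_eq hΦ hQ, Pw_eq hΦ hQ,
      Real.log_div (by positivity) (by positivity)]
    have h3 : Q x v = D.pw v * D.P v x := by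
      rw [← P_eq hQ v x, ← pr_eq hQ v, mul_div_cancel₀]
      · rw [hQ, hQ, D.hsym x v]
        ring
      · rw [pr_eq hQ]
        exact (D.pw_pos v).ne'
    rw [h3]
    unfold P365T2.H844.lamf
    ring
  calc ∑ v ∈ Mv, rho k * (D.om v * D.pw v * ∑ x, D.P v x *
        (((kerR D J).u k v - (kerR D J).u k x) *
          Real.log (((kerR D J).u k v + ε) / ((kerR D J).u k x + ε))))
      ≤ ∑ v, rho k * (D.pw v * ∑ x, D.P v x *
        (((kerR D J).u k v - (kerR D J).u k x) *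
          Real.log (((kerR D J).u k v + ε) / ((kerR D J).u k x + ε)))) := by
        refine (sum_le_sum fun v _ => ?_).trans
          (sum_le_sum_of_subset_of_nonneg (subset_univ Mv) fun v _ _ => ?_)
        · refine mul_le_mul_of_nonneg_left ?_ hr.le
          have h1 : 0 ≤ ∑ x, D.P v x * (((kerR D J).u k v - (kerR D J).u k x) *
              Real.log (((kerR D J).u k v + ε) / ((kerR D J).u k x + ε))) :=
            sum_nonneg fun x _ => mul_nonneg (D.P_nonneg v x) (key v x)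
          refine mul_le_mul_of_nonneg_right ?_ h1
          exact mul_le_of_le_one_left (D.pw_pos v).le (D.hom1 v)
        · exact mul_nonneg hr.le (mul_nonneg (D.pw_pos v).le
            (sum_nonneg fun x _ => mul_nonneg (D.P_nonneg v x) (key v x)))
    _ = ∑ x, ∑ v, Q x v * ((P365T2.H844.lamf ε (P365T2.H844.ur Φ Q J k x) -
          P365T2.H844.lamf ε (P365T2.H844.ur Φ Q J k v)) *
          (P365T2.H844.Pw Φ Q J k v v - P365T2.H844.Pw Φ Q J k x x)) := by
        rw [sum_comm]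
        refine sum_congr rfl fun v _ => ?_
        rw [mul_sum, mul_sum]
        refine sum_congr rfl fun x _ => ?_
        rw [hterm x v]
        ring

end cmp

end P365T2.H320K
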