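import Mathlib.Analysis.InnerProductSpace.Laplacian
import Mathlib.Analysis.Calculus.ContDiff.FTaylorSeries
import Mathlib.Analysis.SpecialFunctions.Log.Deriv
import Mathlib.Analysis.SpecialFunctions.Pow.Real
import Mathlib.Tactic

/-!
# P365-T2, X-LOC: lower bound of the Laplacian of the truncated pair functional

`PH c (K, M) = K (log (K + M) - log (K + c M))` with `K = |G|²`, `M = m₁ m₂`, `G` complex affine,
`m₁, m₂` real affine on the disc.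
-/

set_option autoImplicit false
set_option linter.all false

namespace P365T2.H320

open Complex Laplacian Filter Topology
open scoped ComplexConjugate

/-! ### the Laplacian by second derivatives on lines -/

theorem hasDerivAt_line {f : ℂ → ℝ} {z : ℂ} (e : ℂ) (t : ℝ) (h : DifferentiableAt ℝ f (z + t * e)) :
    HasDerivAt (fun s : ℝ => f (z + s * e)) (fderiv ℝ f (z + t * e) e) t := by
  have h1 : HasDerivAt (fun s : ℝ => z + (s : ℂ) * e) e t := by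
    have := ((Complex.ofRealCLM.hasDerivAt (x := t)).mul_const e).const_add z
    simpa using this
  exact h.hasFDerivAt.comp_hasDerivAt t h1

theorem iteratedFDeriv_line {f : ℂ → ℝ} {z : ℂ} (hf : ContDiffAt ℝ 2 f z) (e : ℂ) {f1 : ℝ → ℝ}
    {f2 : ℝ} (h1 : ∀ᶠ t in 𝓝 (0 : ℝ), HasDerivAt (fun s : ℝ => f (z + s * e)) (f1 t) t)
    (h2 : HasDerivAt f1 f2 0) : iteratedFDeriv ℝ 2 f z ![e, e] = f2 := by
  rw [iteratedFDeriv_two_apply]
  simp only [Matrix.cons_val_zero, Matrix.cons_val_one]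
  have hd : ∀ᶠ w in 𝓝 z, DifferentiableAt ℝ f w := by
    filter_upwards [hf.eventually (by norm_num)] with w hw
    exact hw.differentiableAt (by norm_num)
  have hline : Tendsto (fun t : ℝ => z + (t : ℂ) * e) (𝓝 0) (𝓝 z) := by
    have : Continuous fun t : ℝ => z + (t : ℂ) * e := by fun_prop
    have h3 := this.tendsto 0
    simpa using h3
  have hev : ∀ᶠ t in 𝓝 (0 : ℝ), f1 t = fderiv ℝ f (z + t * e) e := by
    filter_upwards [h1, hline.eventually hd] with t ht hdt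
    exact ht.unique (hasDerivAt_line e t hdt)
  have h4 : DifferentiableAt ℝ (fderiv ℝ f) z :=
    (hf.fderiv_right (m := 1) (by norm_num)).differentiableAt (by norm_num)
  have h5 : HasDerivAt (fun t : ℝ => fderiv ℝ f (z + t * e)) (fderiv ℝ (fderiv ℝ f) z e) 0 := by
    have h6 : HasDerivAt (fun s : ℝ => z + (s : ℂ) * e) e 0 := by
      have := ((Complex.ofRealCLM.hasDerivAt (x := 0)).mul_const e).const_add z
      simpa using this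
    have h7 : HasFDerivAt (fderiv ℝ f) (fderiv ℝ (fderiv ℝ f) z) (z + ((0 : ℝ) : ℂ) * e) := by
      simpa using h4.hasFDerivAt
    exact h7.comp_hasDerivAt 0 h6
  have h8 : HasDerivAt (fun t : ℝ => fderiv ℝ f (z + t * e) e) (fderiv ℝ (fderiv ℝ f) z e e) 0 := by
    have := h5.clm_apply (hasDerivAt_const 0 e)
    simpa using this
  exact (h8.congr_of_eventuallyEq hev).unique h2

theorem laplacian_lines {f : ℂ → ℝ} {z : ℂ} (hf : ContDiffAt ℝ 2 f z) {f1 g1 : ℝ → ℝ} {f2 g2 : ℝ}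
    (h1 : ∀ᶠ t in 𝓝 (0 : ℝ), HasDerivAt (fun s : ℝ => f (z + s * (1 : ℂ))) (f1 t) t)
    (h2 : HasDerivAt f1 f2 0)
    (h3 : ∀ᶠ t in 𝓝 (0 : ℝ), HasDerivAt (fun s : ℝ => f (z + s * I)) (g1 t) t)
    (h4 : HasDerivAt g1 g2 0) : Δ f z = f2 + g2 := by
  rw [InnerProductSpace.laplacian_eq_iteratedFDeriv_complexPlane]
  simp only
  rw [iteratedFDeriv_line hf 1 h1 h2, iteratedFDeriv_line hf I h3 h4]

/-! ### the algebraic core -/

/-- second derivative of `K (log (K + M) - log (K + c M))` along a line -/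
noncomputable def D2 (c K M k k2 μ μ2 : ℝ) : ℝ :=
  k2 * (Real.log (K + M) - Real.log (K + c * M)) +
    2 * k * ((k + μ) / (K + M) - (k + c * μ) / (K + c * M)) +
    K * ((k2 + μ2) / (K + M) - (k + μ) ^ 2 / (K + M) ^ 2 -
      (k2 + c * μ2) / (K + c * M) + (k + c * μ) ^ 2 / (K + c * M) ^ 2)

section terms

variable {c K M g R k1 k2 u1 u2 N : ℝ}

theorem aux_ku (hK : 0 ≤ K) (hM : 0 < M) (hg : 0 ≤ g) (hR : 0 ≤ R)
    (hk : k1 ^ 2 + k2 ^ 2 = 4 * K * g) (hu : u1 ^ 2 + u2 ^ 2 ≤ 2 * (M ^ 2 * R)) :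
    |2 * (k1 * u1 + k2 * u2)| ≤ 2 * M * g + 4 * M * (K * R) := by
  have h0 : 0 ≤ 2 * M * g + 4 * M * (K * R) := by positivity
  have c1 : (k1 * u1 + k2 * u2) ^ 2 ≤ (k1 ^ 2 + k2 ^ 2) * (u1 ^ 2 + u2 ^ 2) := by
    nlinarith [sq_nonneg (k1 * u2 - k2 * u1)]
  have h4 : 0 ≤ 4 * K * g := by positivity
  have c2 : (k1 ^ 2 + k2 ^ 2) * (u1 ^ 2 + u2 ^ 2) ≤ (4 * K * g) * (2 * (M ^ 2 * R)) := by
    rw [hk]
    exact mul_le_mul_of_nonneg_left hu h4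
  have c3 : (2 * M * g + 4 * M * (K * R)) ^ 2 = (2 * M * g - 4 * M * (K * R)) ^ 2 +
      4 * ((4 * K * g) * (2 * (M ^ 2 * R))) := by ring
  have c4 : (2 * (k1 * u1 + k2 * u2)) ^ 2 ≤ (2 * M * g + 4 * M * (K * R)) ^ 2 := by
    rw [c3]
    have := sq_nonneg (2 * M * g - 4 * M * (K * R))
    have e : (2 * (k1 * u1 + k2 * u2)) ^ 2 = 4 * (k1 * u1 + k2 * u2) ^ 2 := by ring
    linarith
  exact abs_le_of_sq_le_sq c4 h0

theorem aux_T1 (hK : 0 ≤ K) (hM : 0 < M) (hg : 0 ≤ g) (hR : 0 ≤ R)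
    (h : -(2 * M * g + 4 * M * (K * R)) ≤ 2 * (k1 * u1 + k2 * u2)) :
    -(2 * g + 4 * (K * R)) ≤ 2 * (k1 * (k1 + u1) + k2 * (k2 + u2)) / (K + M) := by
  rw [le_div_iff₀ (by positivity)]
  have h1 : 0 ≤ K * (2 * g + 4 * (K * R)) := by positivity
  have h2 := sq_nonneg k1
  have h3 := sq_nonneg k2
  have e1 : -(2 * g + 4 * (K * R)) * (K + M) =
      -(2 * M * g + 4 * M * (K * R)) - K * (2 * g + 4 * (K * R)) := by ring
  have e2 : 2 * (k1 * (k1 + u1) + k2 * (k2 + u2)) =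
      2 * k1 ^ 2 + 2 * k2 ^ 2 + 2 * (k1 * u1 + k2 * u2) := by ring
  rw [e1, e2]
  linarith

theorem aux_T2 (hc : 0 < c) (hK : 0 ≤ K) (hM : 0 < M) (hg : 0 ≤ g) (hR : 0 ≤ R)
    (hk : k1 ^ 2 + k2 ^ 2 = 4 * K * g)
    (h : 2 * (k1 * u1 + k2 * u2) ≤ 2 * M * g + 4 * M * (K * R)) :
    2 * (k1 * (k1 + c * u1) + k2 * (k2 + c * u2)) / (K + c * M) ≤ 10 * g + 4 * (K * R) := by
  have hcM := mul_pos hc hM
  rw [div_le_iff₀ (by positivity)]
  have e1 : 2 * (k1 * (k1 + c * u1) + k2 * (k2 + c * u2)) =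
      2 * (4 * K * g) + c * (2 * (k1 * u1 + k2 * u2)) := by
    rw [← hk]; ring
  have e2 : c * (2 * (k1 * u1 + k2 * u2)) ≤ c * (2 * M * g + 4 * M * (K * R)) :=
    mul_le_mul_of_nonneg_left h hc.le
  have e3 : 0 ≤ K * g := by positivity
  have e4 : 0 ≤ K * (K * R) := by positivity
  have e5 : 0 ≤ c * M * g := by positivity
  have e6 : (10 * g + 4 * (K * R)) * (K + c * M) = 10 * (K * g) + 4 * (K * (K * R)) +
      10 * (c * M * g) + c * (4 * M * (K * R)) := by ring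
  have e7 : c * (2 * M * g + 4 * M * (K * R)) = 2 * (c * M * g) + c * (4 * M * (K * R)) := by
    ring
  rw [e1, e6]
  linarith

theorem aux_T3 (hK : 0 ≤ K) (hM : 0 < M) (hg : 0 ≤ g) (hR : 0 ≤ R) (hN : -(M * R / 2) ≤ N) :
    -(K * R) ≤ K * (2 * (2 * g) + 2 * N) / (K + M) := by
  rw [le_div_iff₀ (by positivity)]
  have e1 := mul_le_mul_of_nonneg_left hN hK
  have e2 : 0 ≤ K * (K * R) := by positivity
  have e3 : 0 ≤ K * g := by positivity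
  have e4 : -(K * R) * (K + M) = -(K * (K * R)) + 2 * (K * -(M * R / 2)) := by ring
  have e5 : K * (2 * (2 * g) + 2 * N) = 4 * (K * g) + 2 * (K * N) := by ring
  rw [e4, e5]
  linarith

theorem aux_T4 (hK : 0 ≤ K) (hM : 0 < M) (hg : 0 ≤ g) (hR : 0 ≤ R)
    (hk : k1 ^ 2 + k2 ^ 2 = 4 * K * g) (hu : u1 ^ 2 + u2 ^ 2 ≤ 2 * (M ^ 2 * R)) :
    K * ((k1 + u1) ^ 2 + (k2 + u2) ^ 2) / (K + M) ^ 2 ≤ 8 * g + 4 * (K * R) := by
  rw [div_le_iff₀ (by positivity)]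
  have e1 : (k1 + u1) ^ 2 + (k2 + u2) ^ 2 ≤ 2 * (4 * K * g) + 2 * (2 * (M ^ 2 * R)) := by
    rw [← hk]
    linarith [sq_nonneg (k1 - u1), sq_nonneg (k2 - u2)]
  have e2 := mul_le_mul_of_nonneg_left e1 hK
  have e3 : 0 ≤ K * M := by positivity
  have e4 : 0 ≤ M ^ 2 := by positivity
  have e4' : 0 ≤ K ^ 2 := by positivity
  have e5 : 0 ≤ 8 * g * (2 * (K * M) + M ^ 2) := by positivity
  have e6 : 0 ≤ 4 * (K * R) * (2 * (K * M) + K ^ 2) := by positivity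
  have e7 : (8 * g + 4 * (K * R)) * (K + M) ^ 2 = K * (2 * (4 * K * g) + 2 * (2 * (M ^ 2 * R))) +
      8 * g * (2 * (K * M) + M ^ 2) + 4 * (K * R) * (2 * (K * M) + K ^ 2) := by ring
  rw [e7]
  linarith

theorem aux_T5 (hc : 0 < c) (hK : 0 ≤ K) (hM : 0 < M) (hg : 0 ≤ g) (hR : 0 ≤ R)
    (hN : N ≤ M * R / 2) :
    K * (2 * (2 * g) + c * (2 * N)) / (K + c * M) ≤ 4 * g + K * R := by
  have hcM := mul_pos hc hM
  rw [div_le_iff₀ (by positivity)]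
  have h1 : c * (2 * N) ≤ c * (M * R) := mul_le_mul_of_nonneg_left (by linarith) hc.le
  have e1 := mul_le_mul_of_nonneg_left h1 hK
  have e2 : 0 ≤ K * (K * R) := by positivity
  have e3 : 0 ≤ c * M * g := by positivity
  have e4 : (4 * g + K * R) * (K + c * M) = 4 * (K * g) + K * (K * R) + 4 * (c * M * g) +
      K * (c * (M * R)) := by ring
  have e5 : K * (2 * (2 * g) + c * (2 * N)) = 4 * (K * g) + K * (c * (2 * N)) := by ring
  rw [e4, e5]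
  linarith

end terms

theorem aux_M {m1 m2 a1 a2 b1 b2 : ℝ} (hm1 : 0 < m1) (hm2 : 0 < m2) :
    (m1 * m2) ^ 2 * ((a1 ^ 2 + a2 ^ 2) / m1 ^ 2 + (b1 ^ 2 + b2 ^ 2) / m2 ^ 2) =
      (a1 ^ 2 + a2 ^ 2) * m2 ^ 2 + (b1 ^ 2 + b2 ^ 2) * m1 ^ 2 := by
  field_simp

theorem aux_u {m1 m2 a1 a2 b1 b2 : ℝ} (hm1 : 0 < m1) (hm2 : 0 < m2) :
    (a1 * m2 + m1 * b1) ^ 2 + (a2 * m2 + m1 * b2) ^ 2 ≤
      2 * ((m1 * m2) ^ 2 * ((a1 ^ 2 + a2 ^ 2) / m1 ^ 2 + (b1 ^ 2 + b2 ^ 2) / m2 ^ 2)) := by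
  rw [aux_M hm1 hm2]
  linarith [sq_nonneg (a1 * m2 - m1 * b1), sq_nonneg (a2 * m2 - m1 * b2)]

theorem aux_N {m1 m2 a1 a2 b1 b2 : ℝ} (hm1 : 0 < m1) (hm2 : 0 < m2) :
    |a1 * b1 + a2 * b2| ≤
      m1 * m2 * ((a1 ^ 2 + a2 ^ 2) / m1 ^ 2 + (b1 ^ 2 + b2 ^ 2) / m2 ^ 2) / 2 := by
  have hM0 : 0 < m1 * m2 := by positivity
  have hMR := aux_M (a1 := a1) (a2 := a2) (b1 := b1) (b2 := b2) hm1 hm2
  set R : ℝ := (a1 ^ 2 + a2 ^ 2) / m1 ^ 2 + (b1 ^ 2 + b2 ^ 2) / m2 ^ 2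
  have e2 : (m1 * m2) * ((m1 * m2) * R / 2) = ((m1 * m2) ^ 2 * R) / 2 := by ring
  rw [abs_le]
  constructor
  · have h : (m1 * m2) * -(a1 * b1 + a2 * b2) ≤ (m1 * m2) * ((m1 * m2) * R / 2) := by
      rw [e2, hMR]
      linarith [sq_nonneg (a1 * m2 + m1 * b1), sq_nonneg (a2 * m2 + m1 * b2)]
    have := le_of_mul_le_mul_left h hM0
    linarith
  · have h : (m1 * m2) * (a1 * b1 + a2 * b2) ≤ (m1 * m2) * ((m1 * m2) * R / 2) := by
      rw [e2, hMR]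
      linarith [sq_nonneg (a1 * m2 - m1 * b1), sq_nonneg (a2 * m2 - m1 * b2)]
    exact le_of_mul_le_mul_left h hM0

theorem core {c K M m1 m2 g a1 a2 b1 b2 k1 k2 : ℝ} (hc : 0 < c) (hK : 0 ≤ K)
    (hm1 : 0 < m1) (hm2 : 0 < m2) (hM : M = m1 * m2) (hg : 0 ≤ g)
    (hk : k1 ^ 2 + k2 ^ 2 = 4 * K * g) :
    4 * g * (Real.log (K + M) - Real.log (K + c * M) - 6) -
      14 * (K * ((a1 ^ 2 + a2 ^ 2) / m1 ^ 2 + (b1 ^ 2 + b2 ^ 2) / m2 ^ 2)) ≤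
    D2 c K M k1 (2 * g) (a1 * m2 + m1 * b1) (2 * (a1 * b1)) +
      D2 c K M k2 (2 * g) (a2 * m2 + m1 * b2) (2 * (a2 * b2)) := by
  have hM0 : 0 < M := by rw [hM]; positivity
  have hu := aux_u (a1 := a1) (a2 := a2) (b1 := b1) (b2 := b2) hm1 hm2
  have hN := aux_N (a1 := a1) (a2 := a2) (b1 := b1) (b2 := b2) hm1 hm2
  have hR0 : 0 ≤ (a1 ^ 2 + a2 ^ 2) / m1 ^ 2 + (b1 ^ 2 + b2 ^ 2) / m2 ^ 2 := by positivity
  rw [← hM] at hu hN
  generalize (a1 ^ 2 + a2 ^ 2) / m1 ^ 2 + (b1 ^ 2 + b2 ^ 2) / m2 ^ 2 = R at *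
  generalize hu1 : a1 * m2 + m1 * b1 = u1 at *
  generalize hu2 : a2 * m2 + m1 * b2 = u2 at *
  have hku1 := abs_le.1 (aux_ku hK hM0 hg hR0 hk hu)
  have hNa := abs_le.1 hN
  have T1 := aux_T1 hK hM0 hg hR0 hku1.1
  have T2 := aux_T2 hc hK hM0 hg hR0 hk hku1.2
  have T3 := aux_T3 hK hM0 hg hR0 hNa.1
  have T4 := aux_T4 hK hM0 hg hR0 hk hu
  have T5 := aux_T5 hc hK hM0 hg hR0 hNa.2
  have T6 : 0 ≤ K * ((k1 + c * u1) ^ 2 + (k2 + c * u2) ^ 2) / (K + c * M) ^ 2 := by positivity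
  have key : D2 c K M k1 (2 * g) u1 (2 * (a1 * b1)) + D2 c K M k2 (2 * g) u2 (2 * (a2 * b2)) =
      4 * g * (Real.log (K + M) - Real.log (K + c * M)) +
      2 * (k1 * (k1 + u1) + k2 * (k2 + u2)) / (K + M) -
      2 * (k1 * (k1 + c * u1) + k2 * (k2 + c * u2)) / (K + c * M) +
      K * (2 * (2 * g) + 2 * (a1 * b1 + a2 * b2)) / (K + M) -
      K * ((k1 + u1) ^ 2 + (k2 + u2) ^ 2) / (K + M) ^ 2 -
      K * (2 * (2 * g) + c * (2 * (a1 * b1 + a2 * b2))) / (K + c * M) +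
      K * ((k1 + c * u1) ^ 2 + (k2 + c * u2) ^ 2) / (K + c * M) ^ 2 := by
    unfold D2
    ring
  rw [key]
  linarith

end P365T2.H320
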