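import Vale.Agent.P365.T2.H320.Pair

/-!
# P365-T2, (KICK-T): upper bound of the Laplacian of `φ log (φ / m + ε)`

`φ(w) = Σ_z a_z |X_z - B_z (w - u)|²` (`a_z ≥ 0`), `m(w) = c - Im (β (w - u)) > 0`.
-/

set_option autoImplicit false
set_option linter.all false

namespace P365T2.H320

open Complex Laplacian Filter Topology
open scoped ComplexConjugate

/-! ### derivatives on a line -/

/-- first derivative of `K (log (K + ε M) - log M)` along a line -/
noncomputable def E1 (ε : ℝ) (K M K' M' : ℝ → ℝ) (t : ℝ) : ℝ :=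
  K' t * (Real.log (K t + ε * M t) - Real.log (M t)) +
    K t * ((K' t + ε * M' t) / (K t + ε * M t) - M' t / M t)

/-- second derivative (with `M'' = 0`) -/
noncomputable def E2 (ε K M k k2 μ : ℝ) : ℝ :=
  k2 * (Real.log (K + ε * M) - Real.log M) +
    2 * k * ((k + ε * μ) / (K + ε * M) - μ / M) +
    K * (k2 / (K + ε * M) - (k + ε * μ) ^ 2 / (K + ε * M) ^ 2 + μ ^ 2 / M ^ 2)

theorem line_E1 {ε : ℝ} {K M K' M' : ℝ → ℝ} {t : ℝ} (hK : HasDerivAt K (K' t) t)
    (hM : HasDerivAt M (M' t) t) (h1 : 0 < K t + ε * M t) (h2 : 0 < M t) :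
    HasDerivAt (fun t => K t * (Real.log (K t + ε * M t) - Real.log (M t)))
      (E1 ε K M K' M' t) t :=
  hK.mul (((hK.add (hM.const_mul ε)).log h1.ne').sub (hM.log h2.ne'))

theorem line_E2 {ε : ℝ} {K M K' M' : ℝ → ℝ} {k2 : ℝ} (hK : HasDerivAt K (K' 0) 0)
    (hM : HasDerivAt M (M' 0) 0) (hK2 : HasDerivAt K' k2 0) (hM2 : HasDerivAt M' 0 0)
    (h1 : 0 < K 0 + ε * M 0) (h2 : 0 < M 0) :
    HasDerivAt (E1 ε K M K' M') (E2 ε (K 0) (M 0) (K' 0) k2 (M' 0)) 0 := by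
  have e1 := (hK.add (hM.const_mul ε)).log h1.ne'
  have e2 := hM.log h2.ne'
  have e3 := hK2.mul (e1.sub e2)
  have e4 := (hK2.add (hM2.const_mul ε)).div (hK.add (hM.const_mul ε)) h1.ne'
  have e5 := hM2.div hM h2.ne'
  have e6 := hK.mul (e4.sub e5)
  have e7 := e3.add e6
  refine (e7.congr_deriv ?_)
  have h1' := h1.ne'
  have h2' := h2.ne'
  show k2 * (Real.log (K 0 + ε * M 0) - Real.log (M 0)) +
      K' 0 * ((K' 0 + ε * M' 0) / (K 0 + ε * M 0) - M' 0 / M 0) +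
      (K' 0 * ((K' 0 + ε * M' 0) / (K 0 + ε * M 0) - M' 0 / M 0) +
        K 0 * (((k2 + ε * 0) * (K 0 + ε * M 0) - (K' 0 + ε * M' 0) * (K' 0 + ε * M' 0)) /
            (K 0 + ε * M 0) ^ 2 - (0 * M 0 - M' 0 * M' 0) / M 0 ^ 2)) =
      E2 ε (K 0) (M 0) (K' 0) k2 (M' 0)
  unfold E2
  generalize K 0 + ε * M 0 = S at *
  field_simp
  ring

/-! ### algebra -/

theorem aux_mix {p g m k1 k2 u1 u2 : ℝ} (hp : 0 ≤ p) (hg : 0 ≤ g) (hm : 0 < m)
    (hk : k1 ^ 2 + k2 ^ 2 ≤ 4 * p * g) :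
    |k1 * u1 + k2 * u2| ≤ m * (g + p * ((u1 ^ 2 + u2 ^ 2) / m ^ 2)) := by
  have hu : 0 ≤ u1 ^ 2 + u2 ^ 2 := by positivity
  have h0 : 0 ≤ m * (g + p * ((u1 ^ 2 + u2 ^ 2) / m ^ 2)) := by positivity
  refine abs_le_of_sq_le_sq ?_ h0
  have c1 : (k1 * u1 + k2 * u2) ^ 2 ≤ (k1 ^ 2 + k2 ^ 2) * (u1 ^ 2 + u2 ^ 2) := by
    nlinarith [sq_nonneg (k1 * u2 - k2 * u1)]
  have c2 := mul_le_mul_of_nonneg_right hk hu
  have c3 : (m * (g + p * ((u1 ^ 2 + u2 ^ 2) / m ^ 2))) ^ 2 =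
      (m * (g - p * ((u1 ^ 2 + u2 ^ 2) / m ^ 2))) ^ 2 + 4 * p * g * (u1 ^ 2 + u2 ^ 2) := by
    field_simp
    ring
  have := sq_nonneg (m * (g - p * ((u1 ^ 2 + u2 ^ 2) / m ^ 2)))
  linarith

theorem coreT {ε p m g k1 k2 u1 u2 : ℝ} (hε : 0 < ε) (hp : 0 ≤ p) (hm : 0 < m) (hg : 0 ≤ g)
    (hk : k1 ^ 2 + k2 ^ 2 ≤ 4 * p * g) :
    E2 ε p m k1 (2 * g) u1 + E2 ε p m k2 (2 * g) u2 ≤
      4 * g * (Real.log (p + ε * m) - Real.log m + 4) +
        5 * (p * ((u1 ^ 2 + u2 ^ 2) / m ^ 2)) := by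
  have hεm : 0 < ε * m := mul_pos hε hm
  have hS : 0 < p + ε * m := by positivity
  have hmix := abs_le.1 (aux_mix (u1 := u1) (u2 := u2) hp hg hm hk)
  set R : ℝ := (u1 ^ 2 + u2 ^ 2) / m ^ 2 with hR
  have hR0 : 0 ≤ R := by positivity
  have hpR : 0 ≤ p * R := by positivity
  have T1 : 2 * (k1 * (k1 + ε * u1) + k2 * (k2 + ε * u2)) / (p + ε * m) ≤
      10 * g + 2 * (p * R) := by
    rw [div_le_iff₀ hS]
    have e1 : 2 * (k1 * (k1 + ε * u1) + k2 * (k2 + ε * u2)) =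
        2 * (k1 ^ 2 + k2 ^ 2) + 2 * (ε * (k1 * u1 + k2 * u2)) := by ring
    have e2 : ε * (k1 * u1 + k2 * u2) ≤ ε * (m * (g + p * R)) :=
      mul_le_mul_of_nonneg_left hmix.2 hε.le
    have e3 : (10 * g + 2 * (p * R)) * (p + ε * m) = 8 * (p * g) + 2 * (p * g) +
        2 * (p * (p * R)) + 8 * (ε * m * g) + 2 * (ε * (m * (g + p * R))) := by ring
    have e4 : 0 ≤ p * g := by positivity
    have e5 : 0 ≤ p * (p * R) := by positivity
    have e6 : 0 ≤ ε * m * g := by positivity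
    rw [e1, e3]
    have e7 : 4 * p * g = 4 * (p * g) := by ring
    linarith
  have T2 : -(2 * (k1 * u1 + k2 * u2) / m) ≤ 2 * g + 2 * (p * R) := by
    rw [neg_le, le_div_iff₀ hm]
    have : -(2 * g + 2 * (p * R)) * m = 2 * -(m * (g + p * R)) := by ring
    rw [this]
    linarith [hmix.1]
  have T3 : p * (2 * (2 * g)) / (p + ε * m) ≤ 4 * g := by
    rw [div_le_iff₀ hS]
    have e6 : 0 ≤ ε * m * g := by positivity
    have : 4 * g * (p + ε * m) = p * (2 * (2 * g)) + 4 * (ε * m * g) := by ring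
    linarith
  have T4 : 0 ≤ p * ((k1 + ε * u1) ^ 2 + (k2 + ε * u2) ^ 2) / (p + ε * m) ^ 2 := by positivity
  have key : E2 ε p m k1 (2 * g) u1 + E2 ε p m k2 (2 * g) u2 =
      4 * g * (Real.log (p + ε * m) - Real.log m) +
      2 * (k1 * (k1 + ε * u1) + k2 * (k2 + ε * u2)) / (p + ε * m) -
      2 * (k1 * u1 + k2 * u2) / m +
      p * (2 * (2 * g)) / (p + ε * m) -
      p * ((k1 + ε * u1) ^ 2 + (k2 + ε * u2) ^ 2) / (p + ε * m) ^ 2 + p * R := by
    unfold E2
    rw [hR]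
    ring
  rw [key]
  linarith

/-! ### the functional -/

section func

variable {κ : Type*} (s : Finset κ) (a : κ → ℝ) (X B : κ → ℂ) (u : ℂ)

/-- weighted sum of squares of affine functions -/
noncomputable def Sf (w : ℂ) : ℝ := ∑ z ∈ s, a z * Kf (X z) (B z) u w

/-- `φ log (φ / m + ε)` -/
noncomputable def Psi (ε p m : ℝ) : ℝ := p * (Real.log (p + ε * m) - Real.log m)

variable {s a X B u}

theorem Sf_nonneg (ha : ∀ z ∈ s, 0 ≤ a z) (w : ℂ) : 0 ≤ Sf s a X B u w :=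
  Finset.sum_nonneg fun z hz => mul_nonneg (ha z hz) (Kf_nonneg _ _ _ _)

theorem contDiff_Sf : ContDiff ℝ 2 (Sf s a X B u) := by
  unfold Sf
  exact ContDiff.sum fun z _ => contDiff_const.mul contDiff_Kf

theorem Sf_line (w e : ℂ) (t : ℝ) :
    Sf s a X B u (w + t * e) = Sf s a X B u w -
      2 * t * (∑ z ∈ s, a z * (Gf (X z) (B z) u w * conj (B z * e)).re) +
      t ^ 2 * ∑ z ∈ s, a z * normSq (B z * e) := by
  unfold Sf
  rw [Finset.mul_sum, Finset.mul_sum, ← Finset.sum_sub_distrib, ← Finset.sum_add_distrib]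
  refine Finset.sum_congr rfl fun z _ => ?_
  rw [Kf_line]
  ring

/-- Cauchy-Schwarz for the gradient -/
theorem grad_Sf_le (ha : ∀ z ∈ s, 0 ≤ a z) (w : ℂ) :
    (-2 * ∑ z ∈ s, a z * (Gf (X z) (B z) u w * conj (B z * 1)).re) ^ 2 +
      (-2 * ∑ z ∈ s, a z * (Gf (X z) (B z) u w * conj (B z * I)).re) ^ 2 ≤
    4 * Sf s a X B u w * ∑ z ∈ s, a z * normSq (B z) := by
  set v : ℂ := ∑ z ∈ s, (a z : ℂ) * (Gf (X z) (B z) u w * conj (B z)) with hv
  have hre : ∑ z ∈ s, a z * (Gf (X z) (B z) u w * conj (B z * 1)).re = v.re := by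
    rw [hv, re_sum]
    refine Finset.sum_congr rfl fun z _ => ?_
    rw [mul_one, re_ofReal_mul]
  have him : ∑ z ∈ s, a z * (Gf (X z) (B z) u w * conj (B z * I)).re = v.im := by
    rw [hv, im_sum]
    refine Finset.sum_congr rfl fun z _ => ?_
    rw [im_ofReal_mul, map_mul, conj_I]
    congr 1
    simp only [mul_re, mul_im, conj_re, conj_im, neg_re, neg_im, I_re, I_im]
    ring
  rw [hre, him]
  have h1 : (-2 * v.re) ^ 2 + (-2 * v.im) ^ 2 = 4 * ‖v‖ ^ 2 := by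
    rw [← normSq_eq_norm_sq, normSq_apply]
    ring
  rw [h1]
  have h2 : ‖v‖ ≤ ∑ z ∈ s, (Real.sqrt (a z) * ‖Gf (X z) (B z) u w‖) *
      (Real.sqrt (a z) * ‖B z‖) := by
    refine (norm_sum_le _ _).trans (Finset.sum_le_sum fun z hz => le_of_eq ?_)
    rw [norm_mul, norm_mul, RCLike.norm_conj, norm_real, Real.norm_of_nonneg (ha z hz)]
    have := Real.mul_self_sqrt (ha z hz)
    calc a z * (‖Gf (X z) (B z) u w‖ * ‖B z‖)
        = (Real.sqrt (a z) * Real.sqrt (a z)) * (‖Gf (X z) (B z) u w‖ * ‖B z‖) := by rw [this]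
      _ = _ := by ring
  have h3 := Finset.sum_mul_sq_le_sq_mul_sq s
    (fun z => Real.sqrt (a z) * ‖Gf (X z) (B z) u w‖) (fun z => Real.sqrt (a z) * ‖B z‖)
  have e1 : ∑ z ∈ s, (Real.sqrt (a z) * ‖Gf (X z) (B z) u w‖) ^ 2 = Sf s a X B u w := by
    unfold Sf Kf
    refine Finset.sum_congr rfl fun z hz => ?_
    rw [mul_pow, Real.sq_sqrt (ha z hz), normSq_eq_norm_sq]
  have e2 : ∑ z ∈ s, (Real.sqrt (a z) * ‖B z‖) ^ 2 = ∑ z ∈ s, a z * normSq (B z) := by
    refine Finset.sum_congr rfl fun z hz => ?_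
    rw [mul_pow, Real.sq_sqrt (ha z hz), normSq_eq_norm_sq]
  rw [e1, e2] at h3
  have h4 : ‖v‖ ^ 2 ≤ (∑ z ∈ s, (Real.sqrt (a z) * ‖Gf (X z) (B z) u w‖) *
      (Real.sqrt (a z) * ‖B z‖)) ^ 2 := pow_le_pow_left₀ (norm_nonneg _) h2 2
  have h5 := h4.trans h3
  linarith

variable {ε c : ℝ} {β w : ℂ}

theorem contDiffAt_Psi (hε : 0 < ε) (ha : ∀ z ∈ s, 0 ≤ a z) (h1 : 0 < mf c β u w) :
    ContDiffAt ℝ 2 (fun w => Psi ε (Sf s a X B u w) (mf c β u w)) w := by
  unfold Psi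
  have hK := (contDiff_Sf (s := s) (a := a) (X := X) (B := B) (u := u)).contDiffAt (x := w)
  have hm := (contDiff_mf (c1 := c) (β1 := β) (u := u)).contDiffAt (x := w)
  have hK0 := Sf_nonneg (X := X) (B := B) (u := u) ha w
  have e1 := (hK.add (contDiffAt_const.mul hm)).log
    (by show Sf s a X B u w + ε * mf c β u w ≠ 0; positivity)
  exact hK.mul (e1.sub (hm.log h1.ne'))

/-- **Laplacian of the entropy functional**, upper bound -/
theorem lap_Psi_le (hε : 0 < ε) (ha : ∀ z ∈ s, 0 ≤ a z) (h1 : 0 < mf c β u w) :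
    Δ (fun w => Psi ε (Sf s a X B u w) (mf c β u w)) w ≤
      4 * (∑ z ∈ s, a z * normSq (B z)) *
        (Real.log (Sf s a X B u w + ε * mf c β u w) - Real.log (mf c β u w) + 4) +
        5 * (Sf s a X B u w * (normSq β / mf c β u w ^ 2)) := by
  have hK0 := Sf_nonneg (X := X) (B := B) (u := u) ha w
  have gen : ∀ e : ℂ, normSq e = 1 →
      let K : ℝ → ℝ := fun t => Sf s a X B u w -
        2 * t * (∑ z ∈ s, a z * (Gf (X z) (B z) u w * conj (B z * e)).re) +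
        t ^ 2 * ∑ z ∈ s, a z * normSq (B z * e)
      let K' : ℝ → ℝ := fun t => -2 * (∑ z ∈ s, a z * (Gf (X z) (B z) u w * conj (B z * e)).re) +
        2 * t * ∑ z ∈ s, a z * normSq (B z * e)
      let M : ℝ → ℝ := fun t => mf c β u w - t * (β * e).im
      let M' : ℝ → ℝ := fun _ => -(β * e).im
      (∀ᶠ t in 𝓝 (0 : ℝ), HasDerivAt
        (fun t : ℝ => Psi ε (Sf s a X B u (w + t * e)) (mf c β u (w + t * e)))
        (E1 ε K M K' M' t) t) ∧
      HasDerivAt (E1 ε K M K' M') (E2 ε (Sf s a X B u w) (mf c β u w)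
        (-2 * ∑ z ∈ s, a z * (Gf (X z) (B z) u w * conj (B z * e)).re)
        (2 * ∑ z ∈ s, a z * normSq (B z)) (-(β * e).im)) 0 := by
    intro e he K K' M M'
    have hKd : ∀ t, HasDerivAt K (K' t) t := by
      intro t
      have e1 : HasDerivAt (fun t : ℝ => 2 * t *
          (∑ z ∈ s, a z * (Gf (X z) (B z) u w * conj (B z * e)).re))
          (2 * (∑ z ∈ s, a z * (Gf (X z) (B z) u w * conj (B z * e)).re)) t := by
        have := ((hasDerivAt_id t).const_mul 2).mul_const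
          (∑ z ∈ s, a z * (Gf (X z) (B z) u w * conj (B z * e)).re)
        simpa using this
      have e2 : HasDerivAt (fun t : ℝ => t ^ 2 * ∑ z ∈ s, a z * normSq (B z * e))
          (2 * t * ∑ z ∈ s, a z * normSq (B z * e)) t := by
        have := ((hasDerivAt_id t).pow 2).mul_const (∑ z ∈ s, a z * normSq (B z * e))
        simpa using this
      have e3 := (e1.const_sub (Sf s a X B u w)).add e2
      refine e3.congr_deriv ?_
      simp only [K']
      ring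
    have hMd : ∀ t, HasDerivAt M (M' t) t := by
      intro t
      have h0 := ((hasDerivAt_id t).mul_const (β * e).im).const_sub (mf c β u w)
      refine h0.congr_deriv ?_
      show -(1 * (β * e).im) = -(β * e).im
      rw [one_mul]
    have hn : ∑ z ∈ s, a z * normSq (B z * e) = ∑ z ∈ s, a z * normSq (B z) := by
      refine Finset.sum_congr rfl fun z _ => ?_
      rw [normSq_mul, he, mul_one]
    have hK'd : HasDerivAt K' (2 * ∑ z ∈ s, a z * normSq (B z)) 0 := by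
      have := (((hasDerivAt_id (0 : ℝ)).const_mul 2).mul_const
        (∑ z ∈ s, a z * normSq (B z * e))).const_add
        (-2 * (∑ z ∈ s, a z * (Gf (X z) (B z) u w * conj (B z * e)).re))
      refine this.congr_deriv ?_
      rw [hn]
      ring
    have hM'd : HasDerivAt M' 0 0 := hasDerivAt_const _ _
    have hK00 : K 0 = Sf s a X B u w := by simp [K]
    have hM00 : M 0 = mf c β u w := by simp [M]
    have hcK : Continuous K := by fun_prop
    have hcM : Continuous M := by fun_prop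
    have p1 : ∀ᶠ t in 𝓝 (0 : ℝ), 0 < K t + ε * M t := by
      have hc : Continuous fun t => K t + ε * M t := by fun_prop
      refine hc.continuousAt.eventually (lt_mem_nhds ?_)
      simp only [hK00, hM00]
      positivity
    have p2 : ∀ᶠ t in 𝓝 (0 : ℝ), 0 < M t := by
      refine hcM.continuousAt.eventually (lt_mem_nhds ?_)
      rw [hM00]
      exact h1
    constructor
    · filter_upwards [p1, p2] with t ht1 ht2
      have h := line_E1 (hKd t) (hMd t) ht1 ht2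
      refine h.congr_of_eventuallyEq (Eventually.of_forall fun r => ?_)
      simp only [Psi, K, M]
      rw [Sf_line, mf_line]
    · have h := line_E2 (hKd 0) (hMd 0) hK'd hM'd p1.self_of_nhds p2.self_of_nhds
      rw [hK00, hM00] at h
      have e1 : K' 0 = -2 * (∑ z ∈ s, a z * (Gf (X z) (B z) u w * conj (B z * e)).re) := by
        simp [K']
      rw [e1] at h
      exact h
  obtain ⟨a1, a2⟩ := gen 1 (by simp)
  obtain ⟨b1, b2⟩ := gen I (by simp)
  rw [laplacian_lines (contDiffAt_Psi hε ha h1) a1 a2 b1 b2]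
  have hg : 0 ≤ ∑ z ∈ s, a z * normSq (B z) :=
    Finset.sum_nonneg fun z hz => mul_nonneg (ha z hz) (normSq_nonneg _)
  have h := coreT (u1 := -(β * 1).im) (u2 := -(β * I).im) hε hK0 h1 hg (grad_Sf_le ha w)
  have hb : (-(β * 1).im) ^ 2 + (-(β * I).im) ^ 2 = normSq β := by
    simp only [mul_one, mul_im, I_re, I_im, normSq_apply]
    ring
  rw [hb] at h
  exact h

end func

end P365T2.H320
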