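import Vale.Agent.P365.T2.H320.Lap

/-!
# P365-T2, X-LOC: the truncated pair functional on the disc

`G(w) = G₀ - γ (w - u)`, `m(w) = c - Im (β (w - u))`,
`F = |G|² (log (|G|² + m₁ m₂) - log (|G|² + κ m₁ m₂))`.
-/

set_option autoImplicit false
set_option linter.all false

namespace P365T2.H320

open Complex Laplacian Filter Topology
open scoped ComplexConjugate

/-! ### derivatives on a line -/

/-- first derivative of `K (log (K + M) - log (K + c M))` along a line -/
noncomputable def D1 (c : ℝ) (K M K' M' : ℝ → ℝ) (t : ℝ) : ℝ :=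
  K' t * (Real.log (K t + M t) - Real.log (K t + c * M t)) +
    K t * ((K' t + M' t) / (K t + M t) - (K' t + c * M' t) / (K t + c * M t))

theorem line_D1 {c : ℝ} {K M K' M' : ℝ → ℝ} {t : ℝ} (hK : HasDerivAt K (K' t) t)
    (hM : HasDerivAt M (M' t) t) (h1 : 0 < K t + M t) (h2 : 0 < K t + c * M t) :
    HasDerivAt (fun t => K t * (Real.log (K t + M t) - Real.log (K t + c * M t)))
      (D1 c K M K' M' t) t := by
  have e1 := (hK.add hM).log h1.ne'
  have e2 := (hK.add (hM.const_mul c)).log h2.ne'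
  have e3 := hK.mul (e1.sub e2)
  exact e3

theorem line_D2 {c : ℝ} {K M K' M' : ℝ → ℝ} {k2 μ2 : ℝ} (hK : HasDerivAt K (K' 0) 0)
    (hM : HasDerivAt M (M' 0) 0) (hK2 : HasDerivAt K' k2 0) (hM2 : HasDerivAt M' μ2 0)
    (h1 : 0 < K 0 + M 0) (h2 : 0 < K 0 + c * M 0) :
    HasDerivAt (D1 c K M K' M') (D2 c (K 0) (M 0) (K' 0) k2 (M' 0) μ2) 0 := by
  have e1 := (hK.add hM).log h1.ne'
  have e2 := (hK.add (hM.const_mul c)).log h2.ne'
  have e3 := hK2.mul (e1.sub e2)
  have e4 := (hK2.add hM2).div (hK.add hM) h1.ne'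
  have e5 := (hK2.add (hM2.const_mul c)).div (hK.add (hM.const_mul c)) h2.ne'
  have e6 := hK.mul (e4.sub e5)
  have e7 := e3.add e6
  refine (e7.congr_deriv ?_)
  have h1' := h1.ne'
  have h2' := h2.ne'
  show k2 * (Real.log (K 0 + M 0) - Real.log (K 0 + c * M 0)) +
      K' 0 * ((K' 0 + M' 0) / (K 0 + M 0) - (K' 0 + c * M' 0) / (K 0 + c * M 0)) +
      (K' 0 * ((K' 0 + M' 0) / (K 0 + M 0) - (K' 0 + c * M' 0) / (K 0 + c * M 0)) +
        K 0 * (((k2 + μ2) * (K 0 + M 0) - (K' 0 + M' 0) * (K' 0 + M' 0)) / (K 0 + M 0) ^ 2 -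
          ((k2 + c * μ2) * (K 0 + c * M 0) - (K' 0 + c * M' 0) * (K' 0 + c * M' 0)) /
            (K 0 + c * M 0) ^ 2)) = D2 c (K 0) (M 0) (K' 0) k2 (M' 0) μ2
  unfold D2
  generalize K 0 + M 0 = S at *
  generalize K 0 + c * M 0 = S' at *
  field_simp
  ring

/-! ### the functional -/

/-- affine complex function -/
def Gf (G0 γ u w : ℂ) : ℂ := G0 - γ * (w - u)

/-- affine real function -/
def mf (c : ℝ) (β u w : ℂ) : ℝ := c - (β * (w - u)).im

/-- the square of the modulus -/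
def Kf (G0 γ u w : ℂ) : ℝ := normSq (Gf G0 γ u w)

/-- the truncated pair functional (`κ = exp (-T)`) -/
noncomputable def Ph (κ : ℝ) (K M : ℝ) : ℝ := K * (Real.log (K + M) - Real.log (K + κ * M))

theorem mf_line (c : ℝ) (β u w e : ℂ) (t : ℝ) :
    mf c β u (w + t * e) = mf c β u w - t * (β * e).im := by
  unfold mf
  have : β * (w + t * e - u) = β * (w - u) + (t : ℂ) * (β * e) := by ring
  rw [this, add_im, re_ofReal_mul_im]
  ring
where
  re_ofReal_mul_im {t : ℝ} {z : ℂ} : ((t : ℂ) * z).im = t * z.im := by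
    simp

theorem Kf_line (G0 γ u w e : ℂ) (t : ℝ) :
    Kf G0 γ u (w + t * e) = Kf G0 γ u w - 2 * t * (Gf G0 γ u w * conj (γ * e)).re +
      t ^ 2 * normSq (γ * e) := by
  unfold Kf
  have : Gf G0 γ u (w + t * e) = Gf G0 γ u w + -((t : ℂ) * (γ * e)) := by
    unfold Gf; ring
  rw [this, normSq_add]
  have e1 : normSq (-((t : ℂ) * (γ * e))) = t ^ 2 * normSq (γ * e) := by
    rw [normSq_neg, normSq_mul, normSq_ofReal]; ring
  have e2 : (Gf G0 γ u w * conj (-((t : ℂ) * (γ * e)))).re =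
      -(t * (Gf G0 γ u w * conj (γ * e)).re) := by
    rw [map_neg, map_mul, conj_ofReal]
    have : Gf G0 γ u w * -((t : ℂ) * conj (γ * e)) =
        -((t : ℂ) * (Gf G0 γ u w * conj (γ * e))) := by ring
    rw [this, neg_re]
    simp
  rw [e1, e2]
  ring

theorem Kf_nonneg (G0 γ u w : ℂ) : 0 ≤ Kf G0 γ u w := normSq_nonneg _

section lap

variable {κ c1 c2 : ℝ} {G0 γ β1 β2 u w : ℂ}

theorem contDiff_Kf : ContDiff ℝ 2 (Kf G0 γ u) := by
  have : Kf G0 γ u = fun w => (Gf G0 γ u w).re * (Gf G0 γ u w).re +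
      (Gf G0 γ u w).im * (Gf G0 γ u w).im := by
    funext w; rfl
  rw [this]
  have h : ContDiff ℝ 2 (Gf G0 γ u) := by unfold Gf; fun_prop
  have hre : ContDiff ℝ 2 fun w => (Gf G0 γ u w).re := reCLM.contDiff.comp h
  have him : ContDiff ℝ 2 fun w => (Gf G0 γ u w).im := imCLM.contDiff.comp h
  exact (hre.mul hre).add (him.mul him)

theorem contDiff_mf : ContDiff ℝ 2 (mf c1 β1 u) := by
  unfold mf
  have h : ContDiff ℝ 2 fun w : ℂ => β1 * (w - u) := by fun_prop
  have him : ContDiff ℝ 2 fun w => (β1 * (w - u)).im := imCLM.contDiff.comp h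
  exact contDiff_const.sub him

theorem contDiffAt_Ph (hκ : 0 < κ) (h1 : 0 < mf c1 β1 u w) (h2 : 0 < mf c2 β2 u w) :
    ContDiffAt ℝ 2 (fun w => Ph κ (Kf G0 γ u w) (mf c1 β1 u w * mf c2 β2 u w)) w := by
  unfold Ph
  have hK := (contDiff_Kf (G0 := G0) (γ := γ) (u := u)).contDiffAt (x := w)
  have hm1 := (contDiff_mf (c1 := c1) (β1 := β1) (u := u)).contDiffAt (x := w)
  have hm2 := (contDiff_mf (c1 := c2) (β1 := β2) (u := u)).contDiffAt (x := w)
  have hK0 := Kf_nonneg G0 γ u w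
  have hM0 := mul_pos h1 h2
  have e1 := (hK.add (hm1.mul hm2)).log
    (by show Kf G0 γ u w + mf c1 β1 u w * mf c2 β2 u w ≠ 0; positivity)
  have e2 := (hK.add (contDiffAt_const.mul (hm1.mul hm2))).log
    (by show Kf G0 γ u w + κ * (mf c1 β1 u w * mf c2 β2 u w) ≠ 0; positivity)
  exact hK.mul (e1.sub e2)

/-- **Laplacian of the truncated pair functional**, lower bound -/
theorem lap_Ph_ge (hκ : 0 < κ) (h1 : 0 < mf c1 β1 u w) (h2 : 0 < mf c2 β2 u w) :
    4 * normSq γ * (Real.log (Kf G0 γ u w + mf c1 β1 u w * mf c2 β2 u w) -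
        Real.log (Kf G0 γ u w + κ * (mf c1 β1 u w * mf c2 β2 u w)) - 6) -
      14 * (Kf G0 γ u w * (normSq β1 / mf c1 β1 u w ^ 2 + normSq β2 / mf c2 β2 u w ^ 2)) ≤
    Δ (fun w => Ph κ (Kf G0 γ u w) (mf c1 β1 u w * mf c2 β2 u w)) w := by
  have hK0 := Kf_nonneg G0 γ u w
  have hM0 := mul_pos h1 h2
  -- generic line
  have gen : ∀ e : ℂ, normSq e = 1 →
      let K : ℝ → ℝ := fun t => Kf G0 γ u w - 2 * t * (Gf G0 γ u w * conj (γ * e)).re +
        t ^ 2 * normSq (γ * e)
      let K' : ℝ → ℝ := fun t => -2 * (Gf G0 γ u w * conj (γ * e)).re + 2 * t * normSq (γ * e)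
      let M : ℝ → ℝ := fun t => (mf c1 β1 u w - t * (β1 * e).im) * (mf c2 β2 u w - t * (β2 * e).im)
      let M' : ℝ → ℝ := fun t => -(β1 * e).im * (mf c2 β2 u w - t * (β2 * e).im) +
        (mf c1 β1 u w - t * (β1 * e).im) * -(β2 * e).im
      (∀ᶠ t in 𝓝 (0 : ℝ), HasDerivAt
        (fun s : ℝ => Ph κ (Kf G0 γ u (w + s * e)) (mf c1 β1 u (w + s * e) * mf c2 β2 u (w + s * e)))
        (D1 κ K M K' M' t) t) ∧
      HasDerivAt (D1 κ K M K' M') (D2 κ (Kf G0 γ u w) (mf c1 β1 u w * mf c2 β2 u w)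
        (-2 * (Gf G0 γ u w * conj (γ * e)).re) (2 * normSq γ)
        (-(β1 * e).im * mf c2 β2 u w + mf c1 β1 u w * -(β2 * e).im)
        (2 * (-(β1 * e).im * -(β2 * e).im))) 0 := by
    intro e he K K' M M'
    have hKd : ∀ t, HasDerivAt K (K' t) t := by
      intro t
      have e1 : HasDerivAt (fun t : ℝ => 2 * t * (Gf G0 γ u w * conj (γ * e)).re)
          (2 * (Gf G0 γ u w * conj (γ * e)).re) t := by
        have := ((hasDerivAt_id t).const_mul 2).mul_const (Gf G0 γ u w * conj (γ * e)).re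
        simpa using this
      have e2 : HasDerivAt (fun t : ℝ => t ^ 2 * normSq (γ * e)) (2 * t * normSq (γ * e)) t := by
        have := ((hasDerivAt_id t).pow 2).mul_const (normSq (γ * e))
        simpa using this
      have e3 := (e1.const_sub (Kf G0 γ u w)).add e2
      refine e3.congr_deriv ?_
      simp only [K']
      ring
    have hm : ∀ (c : ℝ) (β : ℂ) (t : ℝ), HasDerivAt (fun t : ℝ => mf c β u w - t * (β * e).im)
        (-(β * e).im) t := by
      intro c β t
      have := ((hasDerivAt_id t).mul_const (β * e).im).const_sub (mf c β u w)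
      simpa using this
    have hMd : ∀ t, HasDerivAt M (M' t) t := fun t => (hm c1 β1 t).mul (hm c2 β2 t)
    have hK'd : HasDerivAt K' (2 * normSq γ) 0 := by
      have := (((hasDerivAt_id (0 : ℝ)).const_mul 2).mul_const (normSq (γ * e))).const_add
        (-2 * (Gf G0 γ u w * conj (γ * e)).re)
      refine this.congr_deriv ?_
      rw [normSq_mul, he]
      ring
    have hM'd : HasDerivAt M' (2 * (-(β1 * e).im * -(β2 * e).im)) 0 := by
      have := ((hm c2 β2 0).const_mul (-(β1 * e).im)).add ((hm c1 β1 0).mul_const (-(β2 * e).im))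
      refine this.congr_deriv ?_
      ring
    have hK00 : K 0 = Kf G0 γ u w := by simp [K]
    have hM00 : M 0 = mf c1 β1 u w * mf c2 β2 u w := by simp [M]
    have hcK : Continuous K := by fun_prop
    have hcM : Continuous M := by fun_prop
    have p1 : ∀ᶠ t in 𝓝 (0 : ℝ), 0 < K t + M t := by
      refine (hcK.add hcM).continuousAt.eventually (lt_mem_nhds ?_)
      simp only [Pi.add_apply, hK00, hM00]
      positivity
    have p2 : ∀ᶠ t in 𝓝 (0 : ℝ), 0 < K t + κ * M t := by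
      have hc : Continuous fun t => K t + κ * M t := by fun_prop
      refine hc.continuousAt.eventually (lt_mem_nhds ?_)
      simp only [hK00, hM00]
      positivity
    constructor
    · filter_upwards [p1, p2] with t ht1 ht2
      have h := line_D1 (hKd t) (hMd t) ht1 ht2
      refine h.congr_of_eventuallyEq (Eventually.of_forall fun s => ?_)
      simp only [Ph, K, M]
      rw [Kf_line, mf_line, mf_line]
    · have h := line_D2 (hKd 0) (hMd 0) hK'd hM'd p1.self_of_nhds p2.self_of_nhds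
      rw [hK00, hM00] at h
      have e1 : K' 0 = -2 * (Gf G0 γ u w * conj (γ * e)).re := by simp [K']
      have e2 : M' 0 = -(β1 * e).im * mf c2 β2 u w + mf c1 β1 u w * -(β2 * e).im := by simp [M']
      rw [e1, e2] at h
      exact h
  obtain ⟨a1, a2⟩ := gen 1 (by simp)
  obtain ⟨b1, b2⟩ := gen I (by simp)
  rw [laplacian_lines (contDiffAt_Ph hκ h1 h2) a1 a2 b1 b2]
  have hk : (-2 * (Gf G0 γ u w * conj (γ * 1)).re) ^ 2 + (-2 * (Gf G0 γ u w * conj (γ * I)).re) ^ 2 =
      4 * Kf G0 γ u w * normSq γ := by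
    unfold Kf
    generalize Gf G0 γ u w = g
    simp only [mul_one, map_mul, conj_I, mul_re, mul_im, conj_re, conj_im, I_re, I_im, neg_re,
      neg_im, normSq_apply]
    ring
  have h := core (a1 := -(β1 * 1).im) (a2 := -(β1 * I).im) (b1 := -(β2 * 1).im)
    (b2 := -(β2 * I).im) hκ hK0 h1 h2 rfl (normSq_nonneg γ) hk
  have hb : ∀ β : ℂ, (-(β * 1).im) ^ 2 + (-(β * I).im) ^ 2 = normSq β := by
    intro β
    simp only [mul_one, mul_im, I_re, I_im, normSq_apply]
    ring
  rw [hb, hb] at h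
  exact h

end lap

end P365T2.H320
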